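import Vale.Agent.P366B.End
import Vale.Agent.P366E.Nrm

/-!
# P366B: the row `BDC`
-/

open MeasureTheory Metric Filter Topology Set Matrix
open scoped ContDiff ENNReal
open Vale.Agent.P366 Vale.Agent.P366.Stmt Vale.Agent.P366Z Vale.Agent.P366D

noncomputable section

namespace Vale.Agent.P366M.G

theorem bdc0_of (hS : SUBS) (hD : DB) (hF : SHF) (hH : SHD) : BDC0 := by
  intro n M _ B U a β R s' a₀ δ₀ R' R₁ C hB St a0 a1 hδ hSm r1 r2
  have hn := hB.dim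
  have wa := St.wa hB
  have U0 := St.pos hB
  have r0 := hB.one
  have tU := St.asy.tendsto hn
  obtain ⟨δ1, δ2⟩ := hδ
  obtain ⟨m, m0, A, hU⟩ := wa.wt.bd
  obtain ⟨c₁, c0, T₀, hL⟩ := low n M B.g U a R' R₁ hn St.a0 (hB.flat.mono r1) tU
    (fun x => (St.hi x).trans (hB.Ub x).2) (fun x hx => St.lap_le hB (r1.trans hx)) r2
  obtain ⟨T, T1, d, d0, C', hH⟩ := hH n M B U a β R s' a₀ δ₀ R' R₁ C (max T₀ (R' ^ 2)) hB St a0 a1
    ⟨δ1, δ2⟩ hSm r1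
  have T2 := (le_max_right _ _).trans T1.le
  obtain ⟨δ, δ0, hF⟩ := hF n ((R' + 2 * R₁) / 3) R₁ A ((m * (δ₀ / 2)) ^ bb n) (A ^ bb n) d C' hn
    (by linarith) (by linarith) (by positivity) d0
  refine ⟨δ, δ0, fun N r b φ hC hφ hz hF0 p1 p2 hmc η' η0 => ?_⟩
  obtain ⟨D, _, ps, l, π, s, σ, τ, H⟩ := hD n M φ R' ((2 * R' + R₁) / 3) (T + 3) hn hφ hz p1 p2
    (by linarith [hB.flat.R]) (by linarith) (by nlinarith)
  have rd : Rd φ R' (T + 3) T := ⟨⟨by linarith, by nlinarith⟩, p1, p2, T2, by nlinarith⟩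
  have cb := fun j => (hC.sm j).cont
  obtain ⟨d', C₁, c', l₁, K⟩ := H.kb rd hn hB.met St.sm U0 hφ (Z := ⋂ j, {x | b j x ≤ 1})
    (isClosed_iInter fun j => isClosed_le (cb j) continuous_const) fun x hx k =>
      (hmc x k).resolve_left fun ⟨j, hj⟩ => hj.not_ge (mem_iInter.1 hx j)
  obtain ⟨η, η1, η2, η3⟩ : ∃ η > (0 : ℝ), 2 * η ≤ η' ∧ 2 * η ≤ c₁ :=
    ⟨min η' c₁ / 2, by positivity, by linarith [min_le_left η' c₁], by linarith [min_le_right η' c₁]⟩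
  obtain ⟨ε₁, e1, hN⟩ := neck d' C₁ l₁ η K.d0.1 η1
  obtain ⟨ε₂, e2, hH⟩ := hH δ N r b D φ ps _ _ l π s σ τ hC H rd (by linarith) (by linarith) hF0
    fun x hx => (H.ps_zero rd hφ hx).2.2
  have C0 := K.C0
  obtain ⟨ε, ε0, ε1, ε2, ε3, ε4, ε5⟩ : ∃ ε > (0 : ℝ), ε ≤ ε₁ ∧ ε ≤ ε₂ ∧ ε ≤ d' ∧ ε ≤ 1 / 4 ∧
      C₁ * (C₁ + 6) * ε ≤ 4 * c' := by
    have := K.d0.1
    have := K.c0
    refine ⟨min (min ε₁ ε₂) (min (min d' (1 / 4)) (4 * c' / (C₁ * (C₁ + 6)))), by positivity,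
      by simp, by simp, by simp, by simp, (le_div_iff₀' (by positivity)).1 (by simp)⟩
  have l0 := H.l0
  have mU : Met (cf U B.g) := hB.met.cf St.sm U0
  have f1 : Flat B.g ((2 * R' + R₁) / 3) := hB.flat.mono (by linarith)
  have f2 : ∀ x, (2 * R' + R₁) / 3 ≤ ‖px x‖ → 0 < φ x := fun x hx =>
    p2 x (by linarith) ▸ one_pos
  have S : Su B.g U φ ps R' _ _ T l (l⁻¹ ^ (bb n)⁻¹) ε π s σ τ := ⟨H, rd, ⟨hn, hB.met, f1, f2, wa,
    by positivity, by rw [Real.rpow_inv_rpow (by positivity) (bb_pos hn).ne', inv_mul_cancel₀ l0.ne'],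
    H.metB mU ε0, fun q hq => by
      obtain ⟨k1, k2, -⟩ := H.far f1.lt.le f2 hq
      refine H.isoB mU ε0 (by linarith) ?_
      rw [H.sq q (by linarith)]
      linarith [H.le (π q), p2 (π q) (by linarith)]⟩, ⟨ε0, ε4⟩, by linarith⟩
  obtain ⟨y, Y⟩ := H.exists_pot rd S.fr (fun q => H.isoBτ mU ε0) hS (half_pos η1)
  obtain ⟨η'', f, hf⟩ := UpdH.ex_fc η1
  obtain ⟨h, βh, h1, h2, h3, h4, h5, h6, h7⟩ := hm n M D B.g U φ ps _ _ _ T l _ ε π s σ τ _ y a β η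
    η'' R₁ f S Y St.asy η1 hf (by linarith)
    (hN n M D B.g U φ ps _ _ _ T l _ ε π s σ τ _ _ y ε1 S K Y) fun x hx => η3.trans
      (hL T ((le_max_left _ _).trans T1.le) D φ ps _ _ l _ ε π s σ τ _ y S Y x hx)
  have sk : Smooth fun q => (1 - δ₀) * y q + δ₀ / 2 := CD.add (CD.mul cd_const Y.sm) cd_const
  have hk : ∀ q, δ₀ / 2 ≤ (1 - δ₀) * y q + δ₀ / 2 ∧ (1 - δ₀) * y q + δ₀ / 2 ≤ 1 := fun q => by
    constructor <;> nlinarith [(Y.mem q).1, (Y.mem q).2]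
  have lk : ∀ q ∈ Oz π s T, lap (gB π (cf U B.g) s ε) (fun q => (1 - δ₀) * y q + δ₀ / 2) q = 0 :=
    fun q hq => by rw [lap_affine, Y.harm q hq, mul_zero]
  obtain ⟨P, b', S₁, Cv⟩ := hH ε ⟨ε0, ε2⟩ _ sk hk lk fun q k1 k2 =>
    H.scalB mU ε0 K ε3 ε5 k1 ((eventually_all.2 fun j =>
      (cb j).continuousAt.eventually (gt_mem_nhds (k2 j))).mono fun x hx =>
        mem_iInter.2 fun j => le_of_lt (hx j))
  obtain ⟨A', hA⟩ := Y.fd
  have e := Db.cf0 S.fr fun q => (half_pos δ1).trans_le (hk q).1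
  obtain ⟨f', O', h', hP⟩ := hF D _ _ _ P l N r b' (H.sf S.fr sk (half_pos δ1) hk (A := A')
    (fun q => by
      rw [fd_comp_deriv (((hasDerivAt_id' (y q)).const_mul (1 - δ₀)).add_const (δ₀ / 2))
        (Y.sm.diff q), norm_smul, mul_one, Real.norm_of_nonneg (by linarith)]
      exact (mul_le_of_le_one_left (norm_nonneg _) (by linarith)).trans (hA q))
    (fun q hq => lk q ⟨by linarith [(H.far f1.lt.le f2 hq).1],
      fun k => absurd k (H.far f1.lt.le f2 hq).1.not_gt.elim⟩)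
    ((Y.lim.const_mul _).add_const _) tU m0 (fun x => ⟨(hU x).1, (hU x).2.1, (hU x).2.2.2.1⟩)
    (fun x hx => St.lap_le hB (by linarith)) (by linarith) S₁)
    (e.symm ▸ { Cv with out := fun j q hq => Cv.out j q (le_trans (by nlinarith) hq) })
    (e.symm ▸ S₁.slack)
  refine ⟨h, βh, ε, h1, h2, h3, h4, h5, ε0, fun x hx => ?_, fun θ θ0 =>
    ⟨D, _, _, _, f', O', h', l, _, l0, S.fr.c0, hP θ θ0, fun z hz => ?_⟩⟩
  · rw [h6 x ((H.ps_eq rd (by linarith)).self_of_nhds.trans_le hx)]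
    linarith [hf.le.2]
  · have k1 : px (yp z : M) = z := px_yp (by linarith [hB.flat.R])
    have k2 : R₁ ≤ ‖px (yp z : M)‖ := k1.symm ▸ hz
    simp only [fe]
    rw [H.yp z (by linarith), h7 _ k2, (H.πσ _ (one_pos.trans_le (S.ps_far (r2.le.trans k2)))).1]
    ring

/-- **BDC** -/
theorem bdc_of (hS : SUBS) (hD : DB) (hF : SHF) (hH : SHD) : BDC := bdc_of0 (bdc0_of hS hD hF hH)

end Vale.Agent.P366M.G
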