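import Mathlib.Analysis.SpecialFunctions.SmoothTransition
import Mathlib.Analysis.Calculus.BumpFunction.FiniteDimension
import Mathlib.Analysis.SpecialFunctions.Sqrt
import Mathlib.MeasureTheory.Integral.IntervalIntegral.FundThmCalculus
import Mathlib.Analysis.Calculus.Deriv.Slope
import Mathlib.Analysis.SpecialFunctions.Integrals.Basic
import Mathlib.Tactic

/-!
# P366B: the profile of the neck and the barrier
-/

open Filter Topology Set Metric Real
open scoped ContDiff

noncomputable section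

namespace Vale.Agent.P366M.G

/-- a smooth function on an open set agrees near a point with a smooth function on the line -/
theorem ex_extB {f : ℝ → ℝ} {I : Set ℝ} (hI : IsOpen I) {t : ℝ} (ht : t ∈ I)
    (hf : ∀ u ∈ I, ContDiffAt ℝ ∞ f u) : ∃ F : ℝ → ℝ, ContDiff ℝ ∞ F ∧ F =ᶠ[𝓝 t] f ∧
      ((∀ u ∈ I, 0 < f u) → ∀ u, 0 < F u) := by
  obtain ⟨r, r0, hr⟩ := Metric.isOpen_iff.1 hI t ht
  let b : ContDiffBump t := ⟨r / 4, r / 2, by positivity, by linarith⟩
  have hb : ∀ u ∉ I, ∀ᶠ w in 𝓝 u, b w = 0 := fun u hu => by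
    have : r / 2 < dist u t := by
      by_contra k
      exact hu (hr (mem_ball.2 (by linarith)))
    filter_upwards [(isOpen_lt continuous_const (continuous_id.dist continuous_const)).mem_nhds
      this] with w hw using b.zero_of_le_dist (le_of_lt hw)
  refine ⟨fun u => b u * f u + (1 - b u), contDiff_iff_contDiffAt.2 fun u => ?_, ?_, fun h u => ?_⟩
  · refine ContDiffAt.add ?_ (contDiffAt_const.sub b.contDiff.contDiffAt)
    by_cases hu : u ∈ I
    · exact b.contDiff.contDiffAt.mul (hf u hu)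
    · exact (contDiffAt_const (c := 0)).congr_of_eventuallyEq
        ((hb u hu).mono fun w hw => by simp [hw])
  · filter_upwards [b.eventuallyEq_one] with u hu
    simp [hu]
  · by_cases hu : u ∈ I
    · have h1 := h u hu
      have h2 := b.nonneg (x := u)
      have h3 := b.le_one (x := u)
      rcases h2.eq_or_lt with k | k
      · simp [← k]
      · nlinarith [mul_pos k h1]
    · simp [(hb u hu).self_of_nhds]

variable {ε c l t s : ℝ}

/-- the cut-off: one at zero, zero beyond `ε` -/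
def zc (ε t : ℝ) : ℝ := smoothTransition (1 - t / ε)

theorem cd_zc (ε : ℝ) : ContDiff ℝ ∞ (zc ε) :=
  smoothTransition.contDiff.comp (contDiff_const.sub (contDiff_id.div_const _))

theorem zc_nonneg (ε t : ℝ) : 0 ≤ zc ε t := smoothTransition.nonneg _

theorem zc_le (ε t : ℝ) : zc ε t ≤ 1 := smoothTransition.le_one _

theorem zc_pos (h : 0 < ε) (ht : t < ε) : 0 < zc ε t :=
  smoothTransition.pos_of_pos (sub_pos.2 ((div_lt_one h).2 ht))

theorem zc_zero (h : 0 < ε) (ht : ε ≤ t) : zc ε t = 0 :=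
  smoothTransition.zero_of_nonpos (sub_nonpos.2 ((one_le_div h).2 ht))

theorem zc_deriv (h : 0 < ε) (t : ℝ) : deriv (zc ε) t ≤ 0 :=
  Antitone.deriv_nonpos fun _ _ e => smoothTransition.monotone (by gcongr)

/-- the weight of `dφ` -/
def pr (ε t : ℝ) : ℝ := √ε * zc ε t / (2 * √t)

theorem cd_pr (ht : 0 < t) : ContDiffAt ℝ ∞ (pr ε) t :=
  (contDiffAt_const.mul (cd_zc ε).contDiffAt).div
    (contDiffAt_const.mul (contDiffAt_id.sqrt ht.ne')) (by positivity)

theorem pr_nonneg (ε t : ℝ) : 0 ≤ pr ε t := by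
  have := zc_nonneg ε t
  unfold pr
  positivity

theorem pr_pos (h : 0 < ε) (h0 : 0 < t) (ht : t < ε) : 0 < pr ε t := by
  have := zc_pos h ht
  unfold pr
  positivity

theorem pr_sq (h : 0 < ε) (ht : 0 < t) : pr ε t ^ 2 * (4 * t) = ε * zc ε t ^ 2 := by
  have := sqrt_pos.2 ht
  rw [pr, div_pow, mul_pow, mul_pow, sq_sqrt h.le, sq_sqrt ht.le]
  field_simp
  norm_num

theorem pr_deriv (h : 0 < ε) (ht : 0 < t) : 2 * t * deriv (pr ε) t ≤ -pr ε t := by
  have h1 := sqrt_pos.2 ht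
  have h2 : HasDerivAt (pr ε) _ t := ((((cd_zc ε).differentiable (by simp) t).hasDerivAt.const_mul
    √ε).div ((hasDerivAt_sqrt ht.ne').const_mul 2) (by positivity))
  have h3 := mul_nonpos_of_nonneg_of_nonpos (mul_pos (sqrt_pos.2 h) h1).le (zc_deriv h t)
  rw [h2.deriv, pr]
  obtain ⟨r, hr⟩ : ∃ r, r = √t := ⟨_, rfl⟩
  have h4 : t = r ^ 2 := by rw [hr, sq_sqrt ht.le]
  rw [← hr] at h1 h3 ⊢
  rw [h4] at h3 ⊢
  have : 2 * r ^ 2 * ((√ε * deriv (zc ε) (r ^ 2) * (2 * r) - √ε * zc ε (r ^ 2) * (2 * (1 / (2 * r)))) /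
      (2 * r) ^ 2) = √ε * r * deriv (zc ε) (r ^ 2) - √ε * zc ε (r ^ 2) / (2 * r) := by
    field_simp
  linarith

/-- the derivative of the barrier -/
def bd (ε c l s : ℝ) : ℝ := √(4 * s ^ 2 + c * (ε * zc ε (s ^ 2) ^ 2)) * exp (-l * s ^ 2)

/-- the barrier as a function of `s` -/
def br (ε c l s : ℝ) : ℝ := ∫ r in (0 : ℝ)..s, bd ε c l r

theorem cd_bd (h : 0 < ε) (hc : 0 < c) (l : ℝ) : ContDiff ℝ ∞ (bd ε c l) := by
  refine ContDiff.mul (ContDiff.sqrt ((contDiff_const.mul (contDiff_id.pow 2)).add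
    (contDiff_const.mul (contDiff_const.mul (((cd_zc ε).comp (contDiff_id.pow 2)).pow 2))))
    fun s => ne_of_gt ?_) (contDiff_exp.comp (contDiff_const.mul (contDiff_id.pow 2)))
  by_cases hs : s = 0
  · have := zc_pos h (show s ^ 2 < ε by rw [hs]; simpa using h)
    positivity
  · positivity

theorem hasDeriv_br (h : 0 < ε) (hc : 0 < c) (l s : ℝ) : HasDerivAt (br ε c l) (bd ε c l s) s :=
  ((cd_bd h hc l).continuous.integral_hasStrictDerivAt 0 s).hasDerivAt

theorem cd_br (h : 0 < ε) (hc : 0 < c) (l : ℝ) : ContDiff ℝ ∞ (br ε c l) :=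
  contDiff_infty_iff_deriv.2 ⟨fun s => (hasDeriv_br h hc l s).differentiableAt, by
    rw [show deriv (br ε c l) = _ from funext fun s => (hasDeriv_br h hc l s).deriv]
    exact cd_bd h hc l⟩

theorem br_zero : br ε c l 0 = 0 := intervalIntegral.integral_same

theorem br_le (h : 0 < ε) (hc : 0 < c) (hl : 0 ≤ l) (hs : 0 ≤ s) :
    br ε c l s ≤ (2 * s + √(c * ε)) * s := by
  have := intervalIntegral.integral_mono_on hs ((cd_bd h hc l).continuous.intervalIntegrable
    (μ := MeasureTheory.volume) 0 s) (intervalIntegrable_const (c := 2 * s + √(c * ε)))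
    fun r hr => ?_
  · rw [intervalIntegral.integral_const, sub_zero, smul_eq_mul, mul_comm] at this
    exact this
  have h1 := zc_nonneg ε (r ^ 2)
  have h2 := zc_le ε (r ^ 2)
  have h3 := sqrt_nonneg (c * ε)
  have h4 := sq_sqrt (mul_pos hc h).le
  refine (mul_le_of_le_one_right (sqrt_nonneg _) (exp_le_one_iff.2 (by nlinarith [sq_nonneg r]))).trans
    (sqrt_le_iff.2 ⟨by positivity, ?_⟩)
  have h5 : c * (ε * zc ε (r ^ 2) ^ 2) ≤ c * (ε * 1) := by gcongr; nlinarith
  nlinarith [hr.1, hr.2, mul_nonneg hs h3]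

theorem le_br (h : 0 < ε) (hc : 0 < c) (hl : 0 ≤ l) (hs : 0 ≤ s) :
    s ^ 2 * exp (-l * s ^ 2) ≤ br ε c l s := by
  have := intervalIntegral.integral_mono_on (f := fun r => 2 * exp (-l * s ^ 2) * r) hs
    ((continuous_const.mul continuous_id).intervalIntegrable (μ := MeasureTheory.volume) 0 s)
    ((cd_bd h hc l).continuous.intervalIntegrable 0 s) fun r hr => ?_
  · rw [intervalIntegral.integral_const_mul, integral_id] at this
    unfold br
    linarith
  have h1 : 2 * r ≤ √(4 * r ^ 2 + c * (ε * zc ε (r ^ 2) ^ 2)) :=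
    le_sqrt_of_sq_le (by nlinarith [mul_nonneg hc.le (mul_nonneg h.le (sq_nonneg (zc ε (r ^ 2))))])
  have h2 : exp (-l * s ^ 2) ≤ exp (-l * r ^ 2) := exp_le_exp.2 (by
    nlinarith [mul_le_mul_of_nonneg_left (pow_le_pow_left₀ hr.1 hr.2 2) hl])
  calc _ = 2 * r * exp (-l * s ^ 2) := by ring
    _ ≤ _ := mul_le_mul h1 h2 (exp_pos _).le (sqrt_nonneg _)

theorem hasDeriv_brs (h : 0 < ε) (hc : 0 < c) (l : ℝ) (ht : 0 < t) :
    HasDerivAt (fun u => br ε c l √u) (√(1 + c * pr ε t ^ 2) * exp (-l * t)) t := by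
  have h1 := sqrt_pos.2 ht
  refine ((hasDeriv_br h hc l √t).comp t (hasDerivAt_sqrt ht.ne')).congr_deriv ?_
  rw [bd, sq_sqrt ht.le, ← pr_sq h ht, show 4 * t + c * (pr ε t ^ 2 * (4 * t)) =
    (2 * √t) ^ 2 * (1 + c * pr ε t ^ 2) by rw [mul_pow, sq_sqrt ht.le]; ring,
    sqrt_mul (sq_nonneg _), sqrt_sq (by positivity)]
  field_simp

/-- the barrier as a function of `t = s²` -/
theorem brs (h : 0 < ε) (hc : 0 < c) (l : ℝ) (ht : 0 < t) :
    ContDiffAt ℝ ∞ (fun u => br ε c l √u) t ∧ 0 ≤ deriv (fun u => br ε c l √u) t ∧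
      deriv (deriv fun u => br ε c l √u) t = deriv (fun u => br ε c l √u) t *
        (c * (pr ε t * deriv (pr ε) t) / (1 + c * pr ε t ^ 2) - l) := by
  have h0 : 0 < 1 + c * pr ε t ^ 2 := by positivity
  have h1 := ((cd_pr (ε := ε) ht).differentiableAt (by simp)).hasDerivAt
  have h2 : HasDerivAt (fun u => √(1 + c * pr ε u ^ 2) * exp (-l * u)) _ t :=
    ((((h1.pow 2).const_mul c).const_add 1).sqrt h0.ne').mul
      ((hasDerivAt_id t).const_mul (-l)).exp
  refine ⟨(cd_br h hc l).contDiffAt.comp t (contDiffAt_id.sqrt ht.ne'), ?_, ?_⟩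
  · rw [(hasDeriv_brs h hc l ht).deriv]
    positivity
  · rw [(hasDeriv_brs h hc l ht).deriv, EventuallyEq.deriv_eq
      (f := fun u => √(1 + c * pr ε u ^ 2) * exp (-l * u)) (mem_of_superset (lt_mem_nhds ht)
        fun u hu => (hasDeriv_brs h hc l hu).deriv), h2.deriv]
    have h3 := sqrt_pos.2 h0
    have h4 := sq_sqrt h0.le
    simp only [Pi.pow_apply, id]
    generalize √(1 + c * pr ε t ^ 2) = w at *
    rw [← h4]
    field_simp
    norm_num
    ring

end Vale.Agent.P366M.G
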