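import Vale.Agent.P366Q.C.Pt
import Vale.Agent.P366Q.O.Rows
import Vale.Agent.P366M.Max
import Vale.Agent.P366M.Calc2

/-!
# P366B: the metric `g + p(φ)² dφ²`; the inequalities at a point
-/

open MeasureTheory Metric Filter Topology Set
open scoped ContDiff
open Vale.Agent.P366 Vale.Agent.P366.Stmt Vale.Agent.P366Z

noncomputable section

namespace Vale.Agent.P366M.G

open Y.C

variable {n : ℕ} {M : Type} [Mf0 n M] {g : Fld n M} {φ U u : M → ℝ} {p y : ℝ → ℝ} {x : M}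

theorem b2_left {T : Fld n M} {a : ℝ} (h : ∀ i, pd i u x = a * pd i φ x) (v : M → ℝ) :
    b2 g T u v x = a * b2 g T φ v x := by
  have : ∀ i, gr g u i x = a * gr g φ i x := fun i => by
    simp only [gr, h, Finset.mul_sum]
    exact Finset.sum_congr rfl fun _ _ => by ring
  simp only [b2, this, Finset.mul_sum]
  exact Finset.sum_congr rfl fun _ _ => Finset.sum_congr rfl fun _ _ => by ring

theorem b2_hess_comp (hφ : Smooth φ) (hp : ContDiffAt ℝ 2 p (φ x)) :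
    b2 g (hess g fun z => p (φ z)) φ φ x =
      deriv p (φ x) * b2 g (hess g φ) φ φ x + deriv (deriv p) (φ x) * ip g φ φ x ^ 2 := by
  simp only [b2, hess_comp hp (hφ.c2 x), ip_eq_gr, sq, Finset.sum_mul_sum]
  simp only [Finset.mul_sum, ← Finset.sum_add_distrib]
  exact Finset.sum_congr rfl fun _ _ => Finset.sum_congr rfl fun _ _ => by ring

/-- the scalar curvature of the bent metric -/
theorem scal_bend (hg : Met g) (hφ : Smooth φ) (hp : ContDiff ℝ ∞ p) (p0 : ∀ t, 0 < p t) (x : M) :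
    scal (gb g (fun z => p (φ z)) φ) x = scal g x +
      (p (φ x) ^ 2 * (lap g φ x ^ 2 - normSq g (hess g φ) x - 2 * b2 g (rc g) φ φ x) *
        (1 + p (φ x) ^ 2 * ip g φ φ x) +
      2 * p (φ x) * deriv p (φ x) * (ip g φ φ x * lap g φ x - b2 g (hess g φ) φ φ x) -
      2 * p (φ x) ^ 4 * (lap g φ x * b2 g (hess g φ) φ φ x - n1 g (hess g φ) φ x)) /
        (1 + p (φ x) ^ 2 * ip g φ φ x) ^ 2 := by
  have h1 := (hp.differentiable (by simp) (φ x)).hasDerivAt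
  have h2 : ContDiffAt ℝ 2 p (φ x) := hp.contDiffAt.of_le two_le_oo
  have h3 := GbH.ww_sq hg (fun z => p (φ z)) φ x
  have h4 := (one_pos.trans_le (GbH.one_le hg (fun z => p (φ z)) φ x)).ne'
  rw [rb_ n M g _ φ hg (hp.compM hφ) hφ (fun z => p0 _) x, rb,
    show ww g (fun z => p (φ z)) φ x ^ 4 = (ww g (fun z => p (φ z)) φ x ^ 2) ^ 2 by ring, h3,
    ip_comp h1 h1 (hφ.diff x) (hφ.diff x), ip_comp_left h1 (hφ.diff x),
    b2_left (pd_comp h1 (hφ.diff x)), hg.lap_comp (hφ.c2 x) h2, b2_hess_comp hφ h2]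
  field_simp
  ring

theorem scal_le_bend (hg : Met g) (hφ : Smooth φ) (hp : ContDiff ℝ ∞ p) (p0 : ∀ t, 0 < p t)
    {C c t : ℝ} (t0 : 0 < t) (c0 : 0 ≤ c) (C0 : 0 ≤ C)
    (h1 : -C ≤ lap g φ x ^ 2 - normSq g (hess g φ) x - 2 * b2 g (rc g) φ φ x)
    (h2 : lap g φ x * b2 g (hess g φ) φ φ x - n1 g (hess g φ) φ x ≤ C) (h3 : ip g φ φ x ≤ C)
    (h4 : ip g φ φ x * lap g φ x - b2 g (hess g φ) φ φ x ≤ -c)
    (h5 : 2 * t * deriv p (φ x) ≤ -p (φ x)) (h6 : C * (1 + (C + 2) * p (φ x) ^ 2) * t ≤ c) :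
    scal g x ≤ scal (gb g (fun z => p (φ z)) φ) x := by
  rw [scal_bend hg hφ hp p0, le_add_iff_nonneg_right]
  refine div_nonneg ?_ (sq_nonneg _)
  have k0 := hg.ip_nonneg φ x
  have k1 := p0 (φ x)
  generalize p (φ x) = P at *
  generalize deriv p (φ x) = q at *
  generalize ip g φ φ x * lap g φ x - b2 g (hess g φ) φ φ x = B at *
  generalize lap g φ x * b2 g (hess g φ) φ φ x - n1 g (hess g φ) φ x = D at *
  generalize lap g φ x ^ 2 - normSq g (hess g φ) x - 2 * b2 g (rc g) φ φ x = A at *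
  generalize ip g φ φ x = N at *
  have a1 : -(C * (1 + P ^ 2 * C)) ≤ A * (1 + P ^ 2 * N) := by
    have : C * (1 + P ^ 2 * N) ≤ C * (1 + P ^ 2 * C) := by gcongr
    nlinarith [mul_le_mul_of_nonneg_right h1 (show 0 ≤ 1 + P ^ 2 * N by positivity)]
  have a2 : P * c ≤ 2 * t * q * B := by nlinarith [mul_nonneg k1.le c0]
  refine le_of_mul_le_mul_left ?_ t0
  have a3 := mul_le_mul_of_nonneg_left a1 (show 0 ≤ t * P ^ 2 by positivity)
  have a4 := mul_le_mul_of_nonneg_left a2 k1.le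
  have a5 := mul_le_mul_of_nonneg_left h2 (show 0 ≤ 2 * t * P ^ 4 by positivity)
  have a6 := mul_le_mul_of_nonneg_left h6 (sq_nonneg P)
  nlinarith

/-- the Laplacian of `f` for the metric `gb g w f` -/
theorem lap_gb_self {w f : M → ℝ} (hg : Met g) (hw : Smooth w) (hf : Smooth f) (x : M) :
    lap (gb g w f) f x = lap g f x / (1 + w x ^ 2 * ip g f f x) -
      (w x * ip g w f x * ip g f f x + w x ^ 2 * b2 g (hess g f) f f x) /
        (1 + w x ^ 2 * ip g f f x) ^ 2 := by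
  have W0 : ∀ z, ww g w f z ≠ 0 := fun z => (one_pos.trans_le (GbH.one_le_ww hg w f z)).ne'
  have sW := (GbH.sm_ww hg hw hf).diff x
  have e1 : (fun i z => ww g w f z * gr (gb g w f) f i z) =
      fun i z => (ww g w f z)⁻¹ * gr g f i z := by
    funext i z
    have := W0 z
    rw [GbH.gr_gb hg]
    field_simp
    rw [GbH.ww_sq hg]
    ring
  have e2 : 2 * ww g w f x * ip g (ww g w f) f x =
      2 * (w x * ip g w f x * ip g f f x + w x ^ 2 * b2 g (hess g f) f f x) := by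
    have k := ip_comp_left (g := g) (v := f) (hasDerivAt_pow 2 (ww g w f x)) sW
    have k2 : (fun z => ww g w f z ^ 2) = fun z => (fun _ => (1 : ℝ)) z + w z ^ 2 * ip g f f z :=
      funext (GbH.ww_sq hg w f)
    have s1 := (CD.pow hw 2).differentiable (by simp) x
    have s2 := (hg.sm_ip hf hf).diff x
    rw [k2, ip_add_left (dAt_const _) (s1.mul s2), ip_const_left, ip_mul_left s1 s2,
      ip_comp_left (hasDerivAt_pow 2 (w x)) (hw.diff x), hg.ip_sy (ip g f f),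
      ((boch n M g hg).2 f f hf x).2.1] at k
    simp only [b2]
    norm_num at k
    linarith
  have h0 := W0 x
  rw [lap_eq_dv _ (hf.c2 x), GbH.dv_gb hg w hf.diff, e1, hg.dv_smul (sW.inv h0) (hg.diff_gr (hf.c2 x)),
    ← lap_eq_dv _ (hf.c2 x), ← ip_eq_gr, ip_comp_left (hasDerivAt_inv h0) sW, ← GbH.ww_sq hg]
  field_simp
  linear_combination (-(1 / 2 : ℝ)) * e2

/-- the barrier -/
theorem lap_bend_le (hg : Met g) (hφ : Smooth φ) (hp : ContDiff ℝ ∞ p)
    (hy : ContDiffAt ℝ 2 y (φ x)) {c₀ l₁ : ℝ} (y0 : 0 ≤ deriv y (φ x)) (N0 : 0 < ip g φ φ x)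
    (h1 : ip g φ φ x ≤ c₀) (h2 : p (φ x) * deriv p (φ x) ≤ 0)
    (h3 : lap g φ x * ip g φ φ x + |b2 g (hess g φ) φ φ x| ≤ l₁ * ip g φ φ x ^ 2)
    (h4 : deriv (deriv y) (φ x) = deriv y (φ x) *
      (c₀ * (p (φ x) * deriv p (φ x)) / (1 + c₀ * p (φ x) ^ 2) - l₁)) :
    lap (gb g (fun z => p (φ z)) φ) (fun z => y (φ z)) x ≤ 0 := by
  have k1 := (hp.differentiable (by simp) (φ x)).hasDerivAt
  rw [(GbH.met_gb hg (hp.compM hφ) hφ).lap_comp (hφ.c2 x) hy, lap_gb_self hg (hp.compM hφ) hφ,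
    GbH.ip_gb hg, GbH.ww_sq hg, ip_comp_left k1 (hφ.diff x), h4]
  have k2 := neg_abs_le (b2 g (hess g φ) φ φ x)
  have k3 := abs_nonneg (b2 g (hess g φ) φ φ x)
  generalize |b2 g (hess g φ) φ φ x| = β at *
  generalize b2 g (hess g φ) φ φ x = b at *
  generalize p (φ x) = P at *
  generalize deriv p (φ x) = q at *
  generalize deriv y (φ x) = y₁ at *
  generalize lap g φ x = L at *
  generalize ip g φ φ x = N at *
  have c0 : 0 < c₀ := N0.trans_le h1
  have W0 : 0 < 1 + P ^ 2 * N := by positivity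
  have V0 : 0 < 1 + c₀ * P ^ 2 := by positivity
  have e : y₁ * (L / (1 + P ^ 2 * N) - (P * (q * N) * N + P ^ 2 * b) / (1 + P ^ 2 * N) ^ 2) +
      y₁ * (c₀ * (P * q) / (1 + c₀ * P ^ 2) - l₁) * (N - P ^ 2 * N * N / (1 + P ^ 2 * N)) =
      y₁ / (N * (1 + P ^ 2 * N) ^ 2) * ((L * N - l₁ * N ^ 2) * (1 + P ^ 2 * N) - P ^ 2 * N * b +
        P * q * N ^ 2 * (c₀ - N) / (1 + c₀ * P ^ 2)) := by
    field_simp
    ring
  rw [e]
  refine mul_nonpos_of_nonneg_of_nonpos (by positivity) ?_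
  have a1 : P * q * N ^ 2 * (c₀ - N) / (1 + c₀ * P ^ 2) ≤ 0 :=
    div_nonpos_of_nonpos_of_nonneg (mul_nonpos_of_nonpos_of_nonneg
      (mul_nonpos_of_nonpos_of_nonneg h2 (sq_nonneg _)) (sub_nonneg.2 h1)) V0.le
  have a2 : (L * N - l₁ * N ^ 2) * (1 + P ^ 2 * N) ≤ -β * (1 + P ^ 2 * N) :=
    mul_le_mul_of_nonneg_right (by linarith) W0.le
  have a3 := mul_le_mul_of_nonneg_left k2 (show 0 ≤ P ^ 2 * N by positivity)
  nlinarith

/-- the mean curvature of the level sets -/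
theorem mc_eq (hg : Met g) (hφ : Smooth φ) (N0 : gn g φ x ≠ 0) :
    ip g φ φ x * lap g φ x - b2 g (hess g φ) φ φ x =
      gn g φ x ^ 3 * dv g (fun i z => gr g φ i z / gn g φ z) x := by
  have h0 : ip g φ φ x ≠ 0 := by rw [← hg.gn_sq]; exact pow_ne_zero 2 N0
  have s2 := (hg.sm_ip hφ hφ).diff x
  have k1 := Real.hasDerivAt_sqrt h0
  have sN : DAt (gn g φ) x := k1.differentiableAt.compM s2
  have e2 : ip g (gn g φ) φ x = 1 / (2 * gn g φ x) * (2 * b2 g (hess g φ) φ φ x) := by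
    rw [b2, ← ((boch n M g hg).2 φ φ hφ x).2.1, hg.ip_sy φ]
    exact ip_comp_left k1 s2
  simp only [div_eq_inv_mul]
  rw [hg.dv_smul (sN.inv N0) (hg.diff_gr (hφ.c2 x)), ← lap_eq_dv _ (hφ.c2 x), ← ip_eq_gr,
    ip_comp_left (hasDerivAt_inv N0) sN, e2, ← hg.gn_sq]
  field_simp
  ring

theorem mc_cf {M : Type} [Mfe n M] {g : Fld n M} {U φ : M → ℝ} (hg : Met g) (hn : 3 ≤ n)
    (U0 : ∀ x, 0 < U x) (x : M) :
    dv (cf U g) (fun i z => gr (cf U g) φ i z / gn (cf U g) φ z) x =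
      U x ^ (-(n * bb n)) * mcw g U φ x := by
  rw [dv_cf U0, mcw]
  congr 2
  funext i z
  have h := nm2_pos hn
  have e : U z ^ (2 * gam n) = U z ^ (n * bb n) * U z ^ (-(2 * bb n)) / U z ^ (-bb n) := by
    rw [← Real.rpow_add (U0 z), ← Real.rpow_sub (U0 z)]
    congr 1
    unfold gam bb
    field_simp
    ring
  rw [hg.gr_cf (U0 z), hg.gn_cf (U0 z), e]
  ring

end Vale.Agent.P366M.G
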