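import Vale.Agent.P366B.Db
import Vale.Agent.P366B.Pt
import Vale.Agent.P366B.Prof
import Vale.Agent.P366Q.C.Orth

/-!
# P366B: the bent metric on the double
-/

open MeasureTheory Metric Filter Topology Set Matrix
open scoped ContDiff ENNReal
open Vale.Agent.P366 Vale.Agent.P366.Stmt Vale.Agent.P366Z Vale.Agent.P366D

noncomputable section

namespace Vale.Agent.P366M.G

open Y.C

/-- the weight of `ds²` -/
def chi (ε s : ℝ) : ℝ := ε * zc ε (s ^ 2) ^ 2 + Real.smoothTransition (-2 * s - 3)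

section chi

variable {ε s : ℝ}

theorem cd_chi (ε : ℝ) : ContDiff ℝ ∞ (chi ε) :=
  (contDiff_const.mul (((cd_zc ε).comp (contDiff_id.pow 2)).pow 2)).add
    (Real.smoothTransition.contDiff.comp ((contDiff_const.mul contDiff_id).sub contDiff_const))

theorem chi_eq (h : -(3 / 2) ≤ s) : chi ε s = ε * zc ε (s ^ 2) ^ 2 := by
  rw [chi, Real.smoothTransition.zero_of_nonpos (by linarith), add_zero]

theorem chi_nonneg (h : 0 < ε) (s : ℝ) : 0 ≤ chi ε s :=
  add_nonneg (by positivity) (Real.smoothTransition.nonneg _)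

theorem chi_le (h : 0 < ε) (hs : -(3 / 2) ≤ s) : chi ε s ≤ ε := by
  rw [chi_eq hs]
  exact mul_le_of_le_one_right h.le (pow_le_one₀ (zc_nonneg _ _) (zc_le _ _))

theorem chi_zero (h : 0 < ε) (hs : -(3 / 2) ≤ s) (h2 : ε ≤ s ^ 2) : chi ε s = 0 := by
  rw [chi_eq hs, zc_zero h h2]
  simp

theorem of_chi (h : 0 < ε) (h0 : chi ε s = 0) : -2 < s ∧ s ≠ 0 := by
  have h1 := Real.smoothTransition.nonneg (-2 * s - 3)
  have h2 : 0 ≤ ε * zc ε (s ^ 2) ^ 2 := by positivity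
  unfold chi at h0
  refine ⟨?_, fun k => ?_⟩
  · by_contra k
    linarith [Real.smoothTransition.pos_of_pos (show 0 < -2 * s - 3 by linarith)]
  · have := zc_pos h (show s ^ 2 < ε by rw [k]; simpa using h)
    linarith [mul_pos h (pow_pos this 2)]

end chi

/-- the bent metric -/
def gB {n : ℕ} {M D : Type} [Mf0 n M] [Mf0 n D] (π : D → M) (g : Fld n M) (s : D → ℝ) (ε : ℝ) :
    Fld n D := gD π g (fun q => chi ε (s q)) s

theorem sm_b2 {n : ℕ} {M : Type} [Mf0 n M] {g T : Fld n M} {u : M → ℝ} (hg : Met g) (hT : SmT T)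
    (hu : Smooth u) : Smooth (b2 g T u u) := by
  have := SmU.pair (SmU.prod (hg.sm_gr hu) (hg.sm_gr hu)) hT
  convert this using 1
  funext x
  exact Finset.sum_congr rfl fun _ _ => Finset.sum_congr rfl fun _ _ => by ring

/-- the constants of the bending -/
structure Kb {n : ℕ} {M : Type} [Mf0 n M] (g : Fld n M) (f : M → ℝ) (Z : Set M) (d C c l₁ : ℝ) :
    Prop where
  d0 : 0 < d ∧ d ≤ 1 / 2
  C0 : 0 < C
  c0 : 0 < c
  l0 : 0 ≤ l₁
  b1 : ∀ x, 0 ≤ f x → f x ≤ d →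
    -C ≤ lap g f x ^ 2 - normSq g (hess g f) x - 2 * b2 g (rc g) f f x
  b2' : ∀ x, 0 ≤ f x → f x ≤ d → lap g f x * b2 g (hess g f) f f x - n1 g (hess g f) f x ≤ C
  b3 : ∀ x, 0 ≤ f x → f x ≤ d → 0 < ip g f f x ∧ ip g f f x ≤ C
  b4 : ∀ x, 0 ≤ f x → f x ≤ d → x ∈ Z → ip g f f x * lap g f x - b2 g (hess g f) f f x ≤ -c
  b5 : ∀ x, 0 ≤ f x → f x ≤ d →
    lap g f x * ip g f f x + |b2 g (hess g f) f f x| ≤ l₁ * ip g f f x ^ 2

theorem exists_kb {n : ℕ} {M : Type} [Mf0 n M] {g : Fld n M} {f : M → ℝ} {Z : Set M} (hg : Met g)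
    (hf : Smooth f) (hZ : IsClosed Z) (hK : IsCompact {x | 0 ≤ f x ∧ f x ≤ 1 / 2})
    (h : ∀ x, f x = 0 → 0 < ip g f f x ∧
      (x ∈ Z → ip g f f x * lap g f x - b2 g (hess g f) f f x < 0)) :
    ∃ d C c l₁, Kb g f Z d C c l₁ := by
  have cN := (hg.sm_ip hf hf).cont
  have cL := (hg.sm_lap hf).cont
  have cb := (sm_b2 hg (hg.sm_hess hf) hf).cont
  have cA := (cN.mul cL).sub cb
  obtain ⟨d₀, d0, hd⟩ := (hK.inter_right ((isClosed_le cN (continuous_const (y := 0))).union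
    (hZ.inter (isClosed_le (continuous_const (y := 0)) cA)))).exists_forall_le' hf.cont.continuousOn
    (a := 0) fun x hx => hx.1.1.lt_of_ne' fun k =>
      hx.2.elim (h x k).1.not_ge fun m => ((h x k).2 m.1).not_ge m.2
  have d1 : min (d₀ / 2) (1 / 2) < d₀ := (min_le_left _ _).trans_lt (half_lt_self d0)
  have d2 : 0 < min (d₀ / 2) (1 / 2) := by positivity
  have d3 := min_le_right (d₀ / 2) (1 / 2)
  generalize min (d₀ / 2) (1 / 2) = d at *
  have K1 : IsCompact {x | 0 ≤ f x ∧ f x ≤ d} := hK.of_isClosed_subset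
    ((isClosed_le continuous_const hf.cont).inter (isClosed_le hf.cont continuous_const))
    fun x hx => ⟨hx.1, hx.2.trans d3⟩
  obtain ⟨m, m0, hm⟩ := K1.exists_forall_le' cN.continuousOn (a := 0) fun x hx => not_le.1 fun k =>
    (hx.2.trans_lt d1).not_ge (hd x ⟨⟨hx.1, hx.2.trans d3⟩, Or.inl k⟩)
  obtain ⟨c, c0, hc⟩ := (K1.inter_right hZ).exists_forall_le' cA.neg.continuousOn (a := 0)
    fun x hx => neg_pos.2 (not_le.1 fun k =>
      (hx.1.2.trans_lt d1).not_ge (hd x ⟨⟨hx.1.1, hx.1.2.trans d3⟩, Or.inr ⟨hx.2, k⟩⟩))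
  obtain ⟨C, hC⟩ := K1.exists_bound_of_continuousOn (((((cL.pow 2).sub (hg.sm_normSq
    (hg.sm_hess hf)).cont).sub (continuous_const.mul (sm_b2 hg hg.sm_ric hf).cont)).prodMk
    (cL.mul cb)).prodMk (cN.prodMk ((cL.mul cN).add cb.abs))).continuousOn (f := fun x =>
      ((lap g f x ^ 2 - normSq g (hess g f) x - 2 * b2 g (rc g) f f x,
        lap g f x * b2 g (hess g f) f f x), (ip g f f x,
          lap g f x * ip g f f x + |b2 g (hess g f) f f x|)))
  simp only [Prod.norm_def, max_le_iff, Real.norm_eq_abs, abs_le] at hC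
  have C1 := le_abs_self C
  refine ⟨d, |C| + 1, c, |C| / m ^ 2, ⟨d2, d3⟩, by positivity, c0, by positivity,
    fun x a b => by linarith [(hC x ⟨a, b⟩).1.1.1], fun x a b => ?_,
    fun x a b => ⟨m0.trans_le (hm x ⟨a, b⟩), by linarith [(hC x ⟨a, b⟩).2.1.2]⟩,
    fun x a b z => le_neg.1 (hc x ⟨⟨a, b⟩, z⟩), fun x a b => ?_⟩
  · have := (orth n M g (hess g f) f f x hg (hg.hess_sy (hf.c2 x))).2.2.2.2.2.2.1
    linarith [(hC x ⟨a, b⟩).1.2.2, hg.g_nonneg x fun i => tv g (hess g f) f i x]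
  · refine ((hC x ⟨a, b⟩).2.2.2.trans C1).trans ?_
    rw [div_mul_eq_mul_div, le_div_iff₀ (by positivity)]
    exact mul_le_mul_of_nonneg_left (pow_le_pow_left₀ m0.le (hm x ⟨a, b⟩) 2) (abs_nonneg C)

namespace Db

variable {n : ℕ} {M D : Type} [Mfe n M] [Mfe n D] {φ ps : M → ℝ} {Ra R l : ℝ} {π : D → M}
  {s : D → ℝ} {σ : M → D} {τ : D → D} (H : Db φ ps Ra R l π s σ τ) {q : D} {g : Fld n M}
  (hg : Met g) {ε : ℝ} (ε0 : 0 < ε)
include H hg ε0

theorem metB : Met (gB π g s ε) :=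
  H.met hg ((cd_chi ε).compM H.sms) (fun _ => chi_nonneg ε0 _) fun _ => of_chi ε0

theorem gnB {u : M → ℝ} (hu : DAt u (π q)) : gn (gB π g s ε) (fun z => u (π z)) q ≤ gn g u (π q) :=
  gn_gD hg (H.metB hg ε0) (H.smπ q) (chi_nonneg ε0 _) hu

theorem isoB (h : -(3 / 2) < s q) (h2 : ε < s q ^ 2) : IsoM π g (gB π g s ε) q :=
  iso_gD hg (H.metB hg ε0) H.smπ <| by
    filter_upwards [H.sms.cont.continuousAt.eventually (lt_mem_nhds h),
      (H.sms.cont.pow 2).continuousAt.eventually (lt_mem_nhds h2)] with z k1 k2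
    exact chi_zero ε0 k1.le k2.le

theorem isoBτ (h : |s q| < 3 / 2) : IsoM τ (gB π g s ε) (gB π g s ε) q :=
  H.iso_τ (H.metB hg ε0) (by linarith) <| by
    filter_upwards [H.sms.cont.abs.continuousAt.eventually (gt_mem_nhds h)] with z k
    have := abs_lt.1 k
    rw [(H.πτ z (by linarith)).2.1, chi_eq (by linarith), chi_eq this.1.le, neg_sq]

theorem gbB (h : -(3 / 2) < s q) {I : Set ℝ} (hI : IsOpen I) (h1 : s q ^ 2 ∈ I) (h2 : I ⊆ Ioi 0) :
    ∃ p : ℝ → ℝ, ContDiff ℝ ∞ p ∧ p =ᶠ[𝓝 (ps (π q))] pr ε ∧ ((∀ u ∈ I, 0 < pr ε u) → ∀ u, 0 < p u) ∧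
      IsoM π (gb g (fun x => p (ps x)) ps) (gB π g s ε) q := by
  obtain ⟨p, p1, p2, p3⟩ := ex_extB hI h1 fun u hu => cd_pr (ε := ε) (h2 hu)
  refine ⟨p, p1, H.sq q (by linarith) ▸ p2, p3, H.iso_gb hg (H.metB hg ε0) (by linarith) p1 ?_⟩
  have c : ContinuousAt (fun z => s z ^ 2) q := (H.sms.cont.pow 2).continuousAt
  filter_upwards [H.sms.cont.continuousAt.eventually (lt_mem_nhds h), c.eventually p2,
    c.eventually (lt_mem_nhds (h2 h1))] with z k1 k2 k3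
  rw [chi_eq k1.le, k2, pr_sq ε0 k3]

variable {Z : Set M} {d C c l₁ : ℝ} (K : Kb g ps Z d C c l₁)
include K

/-- the barrier -/
theorem lapB (h : 0 < s q) (h2 : s q ^ 2 ≤ d) :
    lap (gB π g s ε) (fun z => br ε C l₁ (s z)) q ≤ 0 := by
  have t0 : 0 < s q ^ 2 := by positivity
  obtain ⟨p, p1, p2, -, p4⟩ := H.gbB hg ε0 (by linarith) isOpen_Ioi t0 subset_rfl
  have e := H.sq q (by linarith)
  rw [e] at t0 h2
  obtain ⟨y1, y2, y3⟩ := brs ε0 K.C0 l₁ t0
  have y4 := y1.of_le two_le_oo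
  rw [p4.lap (u := fun x => br ε C l₁ √(ps x))
    (ContDiffAt.compM (φ := fun u => br ε C l₁ √u) y4 (H.smp.c2 _))]
  · refine lap_bend_le (y := fun u => br ε C l₁ √u) (l₁ := l₁) hg H.smp p1 y4 y2 (K.b3 _ t0.le h2).1 (K.b3 _ t0.le h2).2 ?_
      (K.b5 _ t0.le h2) ?_
    · rw [p2.self_of_nhds, p2.deriv_eq]
      nlinarith [pr_deriv ε0 t0, pr_nonneg ε (ps (π q)), mul_nonneg t0.le (pr_nonneg ε (ps (π q)))]
    · rw [p2.self_of_nhds, p2.deriv_eq, y3]
  · filter_upwards [H.sms.cont.continuousAt.eventually (lt_mem_nhds h)] with z hz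
    rw [← H.sq z (by linarith), Real.sqrt_sq hz.le]

/-- the scalar curvature -/
theorem scalB (e1 : ε ≤ d) (e2 : C * (C + 6) * ε ≤ 4 * c) (h : -(3 / 2) < s q)
    (hZ : ∀ᶠ x in 𝓝 (π q), x ∈ Z) : scal g (π q) ≤ scal (gB π g s ε) q := by
  have key : ∀ z, -(3 / 2) < s z → π z ∈ Z → s z ^ 2 ≠ 0 → s z ^ 2 ≠ ε →
      scal g (π z) ≤ scal (gB π g s ε) z := fun z k1 k2 k3 k4 => by
    rcases k4.lt_or_gt with k | k
    · have t0 := (sq_nonneg _).lt_of_ne' k3
      obtain ⟨p, p1, p2, p3, p4⟩ := H.gbB hg ε0 k1 isOpen_Ioo ⟨t0, k⟩ Ioo_subset_Ioi_self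
      rw [H.sq z (by linarith)] at t0 k
      have t1 := k.le.trans e1
      rw [p4.scal]
      refine scal_le_bend hg H.smp p1 (p3 fun u hu => pr_pos ε0 hu.1 hu.2) t0 K.c0.le K.C0.le
        (K.b1 _ t0.le t1) (K.b2' _ t0.le t1) (K.b3 _ t0.le t1).2 (K.b4 _ t0.le t1 k2) ?_ ?_
      · rw [p2.self_of_nhds, p2.deriv_eq]
        exact pr_deriv ε0 t0
      · have a1 := pr_sq ε0 t0
        have a2 := mul_le_of_le_one_right ε0.le
          (pow_le_one₀ (n := 2) (zc_nonneg ε (ps (π z))) (zc_le _ _))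
        have a3 := K.C0
        have a4 := mul_le_mul_of_nonneg_left (a1.trans_le a2) (show 0 ≤ C * (C + 2) by positivity)
        rw [p2.self_of_nhds]
        nlinarith [mul_le_mul_of_nonneg_left k.le a3.le]
    · exact ((H.isoB hg ε0 k1 k).scal).ge
  have h1 : ∀ᶠ z in 𝓝 q, -(3 / 2) < s z ∧ π z ∈ Z :=
    (H.sms.cont.continuousAt.eventually (lt_mem_nhds h)).and (H.cπ.continuousAt.eventually hZ)
  by_contra k
  have h2 : ∀ᶠ z in 𝓝 q, s z ^ 2 = 0 ∨ s z ^ 2 = ε := by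
    filter_upwards [h1, ((H.metB hg ε0).sm_scal.cont.continuousAt.eventually_lt
      (hg.sm_scal.cont.comp H.cπ).continuousAt (not_le.1 k))] with z k1 k2
    by_contra k3
    exact k2.not_ge (key z k1.1 k1.2 (not_or.1 k3).1 (not_or.1 k3).2)
  have c2 : ContinuousAt (fun z => s z ^ 2) q := (H.sms.cont.pow 2).continuousAt
  have h3 : ∀ i, pd i s q = 0 := fun i => by
    rcases h2.self_of_nhds with m | m
    · refine pd_zero_of_ev (c := 0) ?_ i
      filter_upwards [h2, c2.eventually (gt_mem_nhds (m.trans_lt ε0))] with z k1 k2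
      exact pow_eq_zero_iff two_ne_zero |>.1 (k1.resolve_right k2.ne)
    · have m1 : (fun z => s z ^ 2) =ᶠ[𝓝 q] fun _ => ε := by
        filter_upwards [h2, c2.eventually (lt_mem_nhds (ε0.trans_eq m.symm))] with z k1 k2
        exact k1.resolve_left k2.ne'
      have m2 := pd_zero_of_ev m1 i
      rw [pd_pow (H.sms.diff q)] at m2
      have m3 : s q ≠ 0 := fun m4 => ε0.ne' (by rw [← m, m4]; simp)
      simpa [m3] using m2
  have h4 : ps (π q) ≤ d := by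
    rw [← H.sq q (by linarith)]
    exact h2.self_of_nhds.elim (fun m => m.trans_le K.d0.1.le) fun m => m.trans_le e1
  refine (K.b3 _ (H.sq q (by linarith) ▸ sq_nonneg _) h4).1.ne' ?_
  simp [ip, H.crit (by linarith) h3]

end Db

end Vale.Agent.P366M.G
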