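import Vale.Agent.P366B.Db

/-!
# P366B: the volume of the neck
-/

open MeasureTheory Metric Filter Topology Set Matrix
open scoped ContDiff ENNReal
open Vale.Agent.P366 Vale.Agent.P366.Stmt Vale.Agent.P366Z Vale.Agent.P366D

noncomputable section

namespace Vale.Agent.P366M.G

/-- **VOL2**: the volume of the neck is small -/
def VOL2 : Prop := ∀ (n : ℕ) (M D : Type) [Mfe n M] [Mfe n D] (φ ps : M → ℝ) (Ra R l : ℝ) π
  (s : D → ℝ) σ τ (g : Fld n M) (W : ℝ), Db φ ps Ra R l π s σ τ → Met g →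
  (∃ R₂, ∀ x, R₂ ≤ ‖px x‖ → 1 ≤ ps x) → (∀ x, ps x = 0 → ∃ i, pd i ps x ≠ 0) →
  ∀ e > (0 : ℝ), ∃ ε > (0 : ℝ),
    ∀ w : D → ℝ, Met (gD π g w s) → (∀ q, |s q| < 3 / 2 → 0 ≤ w q ∧ w q ≤ W) →
      (∀ q, |s q| < 3 / 2 → ε ≤ s q ^ 2 → w q = 0) → ∀ A : Set M, IsOpen A →
        vol (gD π g w s) {q | |s q| < 3 / 2 ∧ π q ∈ A} ≤ 2 * vol g A + ENNReal.ofReal e

variable {n : ℕ} {M D : Type} [Mfe n M] [Mfe n D] {φ ps : M → ℝ} {Ra R l : ℝ} {π : D → M}
  {s w w' : D → ℝ} {σ : M → D} {τ : D → D} {g : Fld n M} {q : D}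

theorem dens_gD_le (h : Met (gD π g w s)) (e : w q ≤ w' q) :
    dens (gD π g w s) q ≤ dens (gD π g w' s) q := by
  have : gD π g w' s q = Y.C.gb (gD π g w s) (fun q => √(w' q - w q)) s q := by
    funext i j
    simp only [gD, Y.C.gb, Real.sq_sqrt (sub_nonneg.2 e)]
    ring
  rw [dens_of_eq this, Y.C.GbH.dens_gb h]
  exact le_mul_of_one_le_left (dens_nonneg _ _) (Y.C.GbH.one_le_ww h _ _ _)

theorem vol_gD_le (h : Met (gD π g w s)) (h' : Met (gD π g w' s)) {Z : Set D}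
    (hZ : MeasurableSet Z) (e : ∀ q ∈ Z, w q ≤ w' q) :
    vol (gD π g w s) Z ≤ vol (gD π g w' s) Z := by
  rw [h.vol_eq, h'.vol_eq, withDensity_apply _ hZ, withDensity_apply _ hZ]
  exact setLIntegral_mono' hZ fun q hq => ENNReal.ofReal_le_ofReal (dens_gD_le h (e q hq))

/-- the waist is a regular level -/
theorem Db.reg (H : Db φ ps Ra R l π s σ τ) (h : ∀ x, ps x = 0 → ∃ i, pd i ps x ≠ 0)
    (hq : s q = 0) : ∃ i, pd i s q ≠ 0 := by
  by_contra! k
  have e : (fun q => ps (π q)) =ᶠ[𝓝 q] fun q => s q ^ 2 := by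
    filter_upwards [continuousAt_const.eventually_lt H.sms.cont.continuousAt
      (show -2 < s q by rw [hq]; norm_num)] with z hz using (H.sq z hz.le).symm
  obtain ⟨i, hi⟩ := h (π q) (by rw [e.eq_of_nhds, hq]; norm_num)
  have u : IsUnit (jm π q) := Matrix.mulVec_injective_iff_isUnit.1
    ((injective_iff_map_eq_zero (jm π q).mulVecLin).2 fun ξ hξ => H.imm q ξ hξ (by simp [k]))
  refine hi (congrFun (Matrix.eq_zero_of_vecMul_eq_zero (v := fun a => pd a ps (π q))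
    ((Matrix.isUnit_iff_isUnit_det _).1 u).ne_zero (funext fun j => ?_)) i)
  have := (H.smπ q).pd (H.smp.diff _) j
  rw [pd_congr e, pd_pow (H.sms.diff q), k, mul_zero] at this
  simpa only [vecMul, dotProduct, mul_comm, Pi.zero_apply] using this.symm

theorem Db.cptS (H : Db φ ps Ra R l π s σ τ) (h : ∃ R₂, ∀ x, R₂ ≤ ‖px x‖ → 1 ≤ ps x) {r : ℝ}
    (hr : r < 1) : IsCompact {q | s q ^ 2 ≤ r} := by
  obtain ⟨R₂, h⟩ := h
  have l0 := H.l0
  refine (isCompact_px D (l * max Ra (max R₂ (R0 M)))).of_isClosed_subset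
    (isClosed_le (H.sms.cont.pow 2) continuous_const) fun q hq =>
      show ‖px q‖ ≤ _ from le_of_not_gt fun k => ?_
  have a : max Ra (max R₂ (R0 M)) ≤ ‖l⁻¹ • px q‖ := by
    rw [norm_smul, norm_inv, Real.norm_of_nonneg l0.le, ← div_eq_inv_mul, le_div_iff₀' l0]
    exact k.le
  obtain ⟨a1, a2, a3⟩ : Ra ≤ _ ∧ R₂ ≤ _ ∧ R0 M ≤ _ := by simpa only [max_le_iff] using a
  have b := H.yp _ a1
  rw [smul_inv_smul₀ l0.ne', yp_px (by
    linarith [H.big, mul_le_mul_of_nonneg_left (le_max_left Ra (max R₂ (R0 M))) l0.le])] at b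
  have c := h (P366M.yp (l⁻¹ • px q)) (by rwa [px_yp (by linarith)])
  have d := (H.πσ _ (one_pos.trans_le c)).2.1
  rw [← b] at d
  have : s q ^ 2 ≤ r := hq
  rw [d, Real.sq_sqrt (by linarith)] at this
  linarith

theorem Db.sheet (H : Db φ ps Ra R l π s σ τ) (hg : Met g) (h : Met (gD π g w s)) {N : Set D}
    (hN : IsOpen N) (h0 : ∀ q ∈ N, w q = 0 ∧ -2 ≤ s q) (h1 : ∀ q ∈ N, ∀ q' ∈ N, 0 ≤ s q * s q')
    {A : Set M} (hA : ∀ q ∈ N, π q ∈ A) : vol (gD π g w s) N ≤ vol g A := by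
  rw [← (vol_iso hN.measurableSet (fun q hq => ⟨.of_forall H.smπ, hg, h, ?_⟩)
    fun q hq q' hq' e => H.ext q q' e ?_).2]
  · exact measure_mono (image_subset_iff.2 hA)
  · filter_upwards [hN.mem_nhds hq] with z hz
    funext i j
    simp only [gD, (h0 z hz).1, zero_mul, add_zero]
  · have a : s q ^ 2 = s q' ^ 2 := by rw [H.sq q (h0 q hq).2, H.sq q' (h0 q' hq').2, e]
    rcases sq_eq_sq_iff_eq_or_eq_neg.1 a with b | b
    · exact b
    · have := h1 q hq q' hq'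
      rw [b] at this ⊢
      nlinarith

/-- **VOL2** -/
theorem vol2 : VOL2 := by
  intro n M D _ _ φ ps Ra R l π s σ τ g W H hg h1 h2 e he
  have cs := H.sms.cont
  have W0 : 0 < max W 1 := lt_max_of_lt_right one_pos
  have m1 : Met (gD π g (fun _ => max W 1) s) := met_add hg H.smπ H.sms cd_const (fun _ => W0.le)
    fun q ξ a b => H.imm q ξ a (pow_eq_zero_iff two_ne_zero |>.1 ((mul_eq_zero.1 b).resolve_left W0.ne'))
  have := m1.locFin
  have mZ : ∀ r : ℝ, MeasurableSet {q | s q ^ 2 ≤ r} := fun r =>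
    (isClosed_le (cs.pow 2) continuous_const).measurableSet
  have t := tendsto_measure_biInter_gt (μ := vol (gD π g (fun _ => max W 1) s))
    (s := fun r : ℝ => {q | s q ^ 2 ≤ r}) (a := 0) (fun r _ => (mZ r).nullMeasurableSet)
    (fun i j _ hij q hq => le_trans hq hij)
    ⟨1 / 2, by norm_num, (H.cptS h1 (by norm_num)).measure_lt_top.ne⟩
  rw [show vol (gD π g (fun _ => max W 1) s) (⋂ r > (0 : ℝ), {q | s q ^ 2 ≤ r}) = 0 from
    measure_eq_zero_iff_ae_notMem.2 ((H.sms.llip.ae_pd_zero' _ 0).mono fun q hq k => by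
      have z : s q = 0 := pow_eq_zero_iff two_ne_zero |>.1 (le_antisymm
        (le_of_forall_gt_imp_ge_of_dense fun r hr => mem_iInter₂.1 k r hr) (sq_nonneg _))
      obtain ⟨i, hi⟩ := H.reg h2 z
      exact hi (hq z i))] at t
  obtain ⟨ε, ⟨a1, a2⟩, a3⟩ := ((t.eventually (ge_mem_nhds (ENNReal.ofReal_pos.2 he))).and
    (Ioo_mem_nhdsGT one_pos)).exists.imp fun _ h => And.symm h
  refine ⟨ε, a1, fun w hw w1 w2 A hA => ?_⟩
  have sh : ∀ c : ℝ, c ^ 2 = 1 → vol (gD π g w s)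
      {q | (|s q| < 3 / 2 ∧ π q ∈ A) ∧ ε < s q ^ 2 ∧ 0 < c * s q} ≤ vol g A := fun c hc =>
    H.sheet hg hw (((isOpen_lt cs.abs continuous_const).inter (hA.preimage H.cπ)).inter
      ((isOpen_lt continuous_const (cs.pow 2)).inter
        (isOpen_lt continuous_const (continuous_const.mul cs))))
      (fun q hq => ⟨w2 q hq.1.1 hq.2.1.le, by
        linarith [(abs_lt.1 (show |s q| < 3 / 2 from hq.1.1)).1]⟩)
      (fun q hq q' hq' => by
        nlinarith [mul_pos (show 0 < c * s q from hq.2.2) (show 0 < c * s q' from hq'.2.2)])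
      fun q hq => hq.1.2
  refine (measure_mono (t := (_ ∪ _) ∪ {q | s q ^ 2 ≤ ε}) fun q hq => ?_).trans
    ((measure_union_le _ _).trans (add_le_add ((measure_union_le _ _).trans
      ((add_le_add (sh 1 (by norm_num)) (sh (-1) (by norm_num))).trans (two_mul _).ge))
      ((vol_gD_le hw m1 (mZ ε) fun q hq => (w1 q ?_).2.trans (le_max_left _ _)).trans a3)))
  · rcases le_or_gt (s q ^ 2) ε with k | k
    · exact Or.inr k
    · rcases lt_trichotomy (s q) 0 with c | c | c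
      · exact Or.inl (Or.inr ⟨hq, k, by linarith⟩)
      · rw [c] at k; linarith
      · exact Or.inl (Or.inl ⟨hq, k, by linarith⟩)
  · exact abs_lt_of_sq_lt_sq (by linarith [show s q ^ 2 ≤ ε from hq]) (by norm_num)

end Vale.Agent.P366M.G
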