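import Vale.Agent.P366B.Shd0
import Vale.Agent.P366B.Vol
import Vale.Agent.P366Y.T.Par

/-!
# P366B: the lifted bumps
-/

open MeasureTheory Metric Filter Topology Set Matrix
open scoped ContDiff ENNReal
open Vale.Agent.P366 Vale.Agent.P366.Stmt Vale.Agent.P366Z Vale.Agent.P366D

noncomputable section

namespace Vale.Agent.P366M.G

theorem vol_cf_le {n : ℕ} {M : Type} [Mf n M] {g : Fld n M} {U : M → ℝ} {A : ℝ} (hn : 3 ≤ n)
    (hg : Met g) (hU : Smooth U) (h : ∀ x, 0 < U x ∧ U x ≤ A) {Z : Set M} (hZ : MeasurableSet Z) :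
    vol (cf U g) Z ≤ ENNReal.ofReal (A ^ (n * bb n)) * vol g Z := by
  have := bb_pos hn
  rw [(hg.cf hU fun x => (h x).1).vol_eq, hg.vol_eq, withDensity_apply _ hZ,
    withDensity_apply _ hZ, ← lintegral_const_mul' _ _ ENNReal.ofReal_ne_top]
  refine lintegral_mono fun x => ?_
  rw [dens_cf (h x).1, ENNReal.ofReal_mul (Real.rpow_nonneg (h x).1.le _)]
  gcongr
  exacts [(h x).1.le, (h x).2]

variable {n : ℕ} {M D : Type} [Mfe n M] [Mfe n D]

/-- the gradient of a lifted function -/
theorem gn_lift {g : Fld n M} {U u : M → ℝ} {π : D → M} {w s k : D → ℝ} {q : D} (hg : Met g)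
    (hU : Smooth U) (U0 : ∀ x, 0 < U x) (hG : Met (gD π (cf U g) w s)) (hπ : SmM π q)
    (w0 : 0 ≤ w q) (k0 : 0 < k q) (hu : DAt u (π q)) :
    gn (cf k (gD π (cf U g) w s)) (fun z => u (π z)) q ≤
      (k q * U (π q)) ^ (-bb n) * gn g u (π q) := by
  rw [hG.gn_cf k0, Real.mul_rpow k0.le (U0 _).le, mul_assoc, ← hg.gn_cf (U0 _)]
  exact mul_le_mul_of_nonneg_left (gn_gD (hg.cf hU U0) hG hπ w0 hu) (Real.rpow_nonneg k0.le _)

/-- **CVL** -/
theorem cvl : CVL := by
  intro n m₀ C hn m0
  obtain ⟨c₁, c1, hc⟩ := P366Y.ParH.st_bd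
  have b0 := bb_pos hn
  refine ⟨max (m₀ ^ (-bb n) * (c₁ * C)) (2 * (2 ^ (n * bb n) * |C|) + 1), ?_⟩
  intro M D _ _ g U φ ps Ra R l π s σ τ δ R' N r c hg hU U0 H a1 a2 a3 φ1 φ2 φ3 K
  have hĝ := hg.cf hU fun x => (U0 x).1
  obtain ⟨e, e0, he⟩ : ∃ e > (0 : ℝ), ∀ j, e ≤ r j ^ n := by
    obtain ⟨e, e0, he⟩ := (Set.finite_range fun j => r j ^ n).isCompact.exists_forall_le'
      continuousOn_id (a := 0) (by rintro _ ⟨j, rfl⟩; exact pow_pos (K.s0 j).1 n)
    exact ⟨e, e0, fun j => he _ ⟨j, rfl⟩⟩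
  have inn : ∀ x, ps x < 1 → ‖px x‖ < R' := fun x hx => not_le.1 fun k => by
    linarith [φ2 x k, H.le x]
  obtain ⟨ε₀, ε0, hV⟩ := vol2 n M D φ ps Ra R l π s σ τ _ 1 H hĝ
    ⟨R', fun x hx => (φ2 x hx).ge.trans (H.le x)⟩ (fun x hx => by
      have a := (inn x (by linarith)).trans_le a3
      have b : ps =ᶠ[𝓝 x] φ := (ev_px_lt a).mono fun y hy => H.inn y hy.le
      simpa only [pd_congr b] using φ3 x (b.eq_of_nhds.symm.trans hx)) e e0
  refine ⟨min ε₀ 1, by positivity, fun ε ⟨p0, p1⟩ k sk hk => ?_⟩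
  have hG := H.metB hĝ p0
  have hK := hG.cf sk fun q => (hk q).1
  have big : ∀ j q, -2 ≤ s q → 1 < |s q| → Real.smoothTransition (c j (π q)) = 0 :=
    fun j q h1 h2 => Real.smoothTransition.zero_of_nonpos (K.out j _ (a3.trans (not_lt.1 fun k => by
      have := H.sq q h1
      rw [H.inn _ k.le] at this
      nlinarith [φ1 (π q), sq_abs (s q)])))
  have sc : ∀ j, Smooth fun x => Real.smoothTransition (c j x) := fun j =>
    Real.smoothTransition.contDiff.compM (K.sm j)
  have one : ∀ q, -1 ≤ s q → Real.smoothTransition (2 * s q + 3) = 1 := fun q hq =>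
    Real.smoothTransition.one_of_one_le (by linarith)
  have C0 : ∀ j, 0 ≤ C / r j := fun j => (gn_nonneg _ _ _).trans (K.gr j (Classical.arbitrary M))
  refine ⟨fun j q => Real.smoothTransition (2 * s q + 3) * Real.smoothTransition (c j (π q)),
    ⟨K.s0, K.sum, fun j => CD.mul (Real.smoothTransition.contDiff.compM
      (CD.add (CD.mul cd_const H.sms) cd_const)) (H.sm (sc j)), fun j q => ?_, fun j => ?_,
      fun j q hq => ?_⟩, fun j q h1 h2 => ?_⟩
  · refine le_trans ?_ (div_le_div_of_nonneg_right (le_max_left _ _) (K.s0 j).1.le)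
    rw [mul_div_assoc, mul_div_assoc]
    rcases lt_or_ge (-2) (s q) with h | h
    · rw [gn_congr (u' := fun z => Real.smoothTransition (c j (π z))) (by
        filter_upwards [H.sms.cont.continuousAt.eventually (lt_mem_nhds h)] with z hz
        rcases le_or_gt (-1) (s z) with k | k
        · rw [one z k, one_mul]
        · rw [big j z hz.le (lt_abs.2 (Or.inr (by linarith))), mul_zero])]
      refine (gn_lift hg hU (fun x => (U0 x).1) hG (H.smπ q) (chi_nonneg p0 _) (hk q).1
        ((sc j).diff _)).trans (mul_le_mul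
          (Real.rpow_le_rpow_of_nonpos m0 (hk q).2.2 (by linarith)) ?_ (gn_nonneg _ _ _)
          (by positivity))
      rw [gn_comp ((Real.smoothTransition.contDiff (n := 1)).differentiable one_ne_zero
        _).hasDerivAt ((K.sm j).diff _), abs_of_nonneg (hc _).1]
      exact mul_le_mul (hc _).2 (K.gr j _) (gn_nonneg _ _ _) (by linarith)
    · rw [gn_zero (pd_zero_of_ev (c := 0) (by
        filter_upwards [H.sms.cont.continuousAt.eventually
          (gt_mem_nhds (show s q < -(3 / 2) by linarith))] with z hz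
        rw [Real.smoothTransition.zero_of_nonpos (by linarith), zero_mul]))]
      exact mul_nonneg (by positivity) (mul_nonneg (by linarith) (C0 j))
  · have oA : IsOpen {x | 0 < c j x} := isOpen_lt continuous_const (K.sm j).cont
    have mZ : MeasurableSet {q | |s q| < 3 / 2 ∧ π q ∈ {x | 0 < c j x}} :=
      ((isOpen_lt H.sms.cont.abs continuous_const).inter (oA.preimage H.cπ)).measurableSet
    refine le_trans (lintegral_mono_set (t := {q | |s q| < 3 / 2 ∧ π q ∈ {x | 0 < c j x}})
      fun q hq => ?_) ?_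
    · obtain ⟨h1, h2⟩ := mul_ne_zero_iff.1 (mem_ofPred_eq ▸ hq : (0 : ℝ) < _).ne'
      have h3 : -(3 / 2) < s q := not_le.1 fun k =>
        h1 (Real.smoothTransition.zero_of_nonpos (by linarith))
      exact ⟨not_le.1 fun k => h2 (big j q (by linarith) (by linarith)),
        not_le.1 fun k => h2 (Real.smoothTransition.zero_of_nonpos k)⟩
    rw [← withDensity_apply _ mZ, ← hK.vol_eq]
    refine (vol_cf_le hn hG sk (A := 1) (fun q => ⟨(hk q).1, (hk q).2.1⟩) mZ).trans ?_
    rw [Real.one_rpow, ENNReal.ofReal_one, one_mul]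
    refine (hV _ hG (fun q hq => ⟨chi_nonneg p0 _, (chi_le p0 (abs_lt.1 hq).1.le).trans
      (p1.trans (min_le_right _ _))⟩) (fun q hq h => chi_zero p0 (abs_lt.1 hq).1.le
        ((p1.trans (min_le_left _ _)).trans h)) _ oA).trans ?_
    have v := K.vol j
    rw [← withDensity_apply _ oA.measurableSet, ← hg.vol_eq] at v
    have r0 := pow_pos (K.s0 j).1 n
    calc _ ≤ 2 * (ENNReal.ofReal (2 ^ (n * bb n)) * ENNReal.ofReal (|C| * r j ^ n)) +
          ENNReal.ofReal (r j ^ n) := by
          gcongr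
          · refine (vol_cf_le hn hg hU U0 oA.measurableSet).trans ?_
            gcongr
            exact v.trans (by gcongr; exact le_abs_self C)
          · exact he j
      _ = ENNReal.ofReal ((2 * (2 ^ (n * bb n) * |C|) + 1) * r j ^ n) := by
          rw [← ENNReal.ofReal_mul (by positivity), ← ENNReal.ofReal_ofNat 2,
            ← ENNReal.ofReal_mul (by positivity), ← ENNReal.ofReal_add (by positivity) r0.le]
          congr 1
          ring
      _ ≤ _ := by gcongr; exact le_max_right _ _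
  · rw [Real.smoothTransition.zero_of_nonpos (K.out j _ (a2.trans (H.far a1
      (fun x hx => (φ2 x (a2.trans hx)).symm ▸ one_pos) hq).2.1)), mul_zero]
  · simp only [one q h1, one_mul] at h2
    exact not_le.1 fun k => h2.ne (Real.smoothTransition.one_of_one_le k)

end Vale.Agent.P366M.G
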