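import Vale.Agent.P366B.Defs
import Vale.Agent.P366D.Dbl
import Vale.Agent.P366Q.C.Gb
import Vale.Agent.P366M.End3

/-!
# P366B: the properties of the double
-/

open MeasureTheory Metric Filter Topology Set Matrix
open scoped ContDiff ENNReal
open Vale.Agent.P366 Vale.Agent.P366.Stmt Vale.Agent.P366Z Vale.Agent.P366D

noncomputable section

namespace Vale.Agent.P366M.G

theorem proj_le' {n k : ℕ} {G : Matrix (Fin n) (Fin n) ℝ} {H : Matrix (Fin k) (Fin k) ℝ}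
    (hG : G.PosDef) (hH : H.PosDef) {A : Matrix (Fin n) (Fin k) ℝ}
    (h : ∀ b, (A *ᵥ b) ⬝ᵥ G *ᵥ (A *ᵥ b) ≤ b ⬝ᵥ H *ᵥ b) (a : Fin n → ℝ) :
    (Aᵀ *ᵥ a) ⬝ᵥ H⁻¹ *ᵥ (Aᵀ *ᵥ a) ≤ a ⬝ᵥ G⁻¹ *ᵥ a := by
  have u1 := isUnit_iff_ne_zero.2 hG.det_pos.ne'
  have u2 := isUnit_iff_ne_zero.2 hH.det_pos.ne'
  have sy : Gᵀ = G := hG.isHermitian
  set b := H⁻¹ *ᵥ (Aᵀ *ᵥ a) with hb
  have e1 : H *ᵥ b = Aᵀ *ᵥ a := by rw [hb, mulVec_mulVec, mul_nonsing_inv _ u2, one_mulVec]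
  have e2 : (Aᵀ *ᵥ a) ⬝ᵥ b = a ⬝ᵥ A *ᵥ b := by rw [mulVec_transpose, dotProduct_mulVec a]
  have e3 := h b
  rw [e1, dotProduct_comm b, e2, dotProduct_comm] at e3
  have e4 : G⁻¹ *ᵥ (G *ᵥ (A *ᵥ b)) = A *ᵥ b := by
    rw [mulVec_mulVec, nonsing_inv_mul _ u1, one_mulVec]
  have e5 : (G *ᵥ (A *ᵥ b)) ⬝ᵥ G⁻¹ *ᵥ a = a ⬝ᵥ A *ᵥ b := by
    rw [dotProduct_mulVec, ← mulVec_transpose, transpose_nonsing_inv, sy, e4, dotProduct_comm]
  have k := hG.inv.posSemidef.dotProduct_mulVec_nonneg (a - G *ᵥ (A *ᵥ b))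
  rw [star_trivial, mulVec_sub, sub_dotProduct, dotProduct_sub, dotProduct_sub, e4, e5] at k
  rw [e2]
  linarith

section L0

variable {n : ℕ} {M D : Type} [Mf0 n M] [Mf0 n D] {π : D → M} {g : Fld n M} {w s : D → ℝ} {q : D}

/-- the gradient of a lifted function is shorter -/
theorem gn_gD (hg : Met g) (hG : Met (gD π g w s)) (hπ : SmM π q) (w0 : 0 ≤ w q) {u : M → ℝ}
    (hu : DAt u (π q)) : gn (gD π g w s) (fun z => u (π z)) q ≤ gn g u (π q) := by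
  have := proj_le' (hg.pos (π q)) (hG.pos q) (A := jm π q) (fun b => ?_) fun a => pd a u (π q)
  · rw [← quad_dot, ← quad_dot] at this
    refine Real.sqrt_le_sqrt ?_
    unfold P366M.ip
    simp only [hπ.pd hu]
    exact this
  · have e : b ⬝ᵥ mat (gD π g w s) q *ᵥ b =
        b ⬝ᵥ mat (pull π g) q *ᵥ b + w q * (∑ i, b i * pd i s q) ^ 2 := by
      rw [← quad_dot, ← quad_dot, sq, Finset.sum_mul_sum]
      simp only [P366M.mat, gD, Finset.mul_sum, ← Finset.sum_add_distrib]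
      exact Finset.sum_congr rfl fun _ _ => Finset.sum_congr rfl fun _ _ => by ring
    rw [e, mat_pull, ← mulVec_mulVec, ← mulVec_mulVec, dotProduct_mulVec b, vecMul_transpose]
    exact le_add_of_nonneg_right (mul_nonneg w0 (sq_nonneg _))

theorem iso_gD (hg : Met g) (hG : Met (gD π g w s)) (hπ : ∀ z, SmM π z)
    (h : ∀ᶠ z in 𝓝 q, w z = 0) : IsoM π g (gD π g w s) q :=
  ⟨.of_forall hπ, hg, hG, h.mono fun z hz => by
    funext i j
    rw [gD, hz, zero_mul, add_zero]⟩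

omit [Mf0 n M] in
theorem cf_cf {a b : M → ℝ} (ha : ∀ x, 0 < a x) (hb : ∀ x, 0 < b x) (g : Fld n M) :
    cf a (cf b g) = cf (fun x => a x * b x) g := by
  funext x i j
  simp only [cf, Real.mul_rpow (ha x).le (hb x).le, mul_assoc]

omit [Mf0 n M] in
theorem cf_one (g : Fld n M) : cf (fun _ => 1) g = g := by
  funext x i j
  simp [cf]

theorem pull_cf (π : D → M) (a : M → ℝ) (g : Fld n M) :
    pull π (cf a g) = cf (fun z => a (π z)) (pull π g) := pull_smul π (fun x => a x ^ (2 * bb n)) g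

end L0

namespace Db

variable {n : ℕ} {M D : Type} [Mfe n M] [Mfe n D] {φ ps : M → ℝ} {Ra R l : ℝ} {π : D → M}
  {s : D → ℝ} {σ : M → D} {τ : D → D} (H : Db φ ps Ra R l π s σ τ) {q : D} {x : M} {g : Fld n M}
  {w : D → ℝ}
include H

theorem cπ : Continuous π := continuous_iff_continuousAt.2 fun q => (H.smπ q).ct

theorem sm {u : M → ℝ} (hu : Smooth u) : Smooth fun z => u (π z) := smooth_comp H.smπ hu

theorem ps_pos (h : -2 ≤ s q) (h0 : s q ≠ 0) : 0 < ps (π q) := H.sq q h ▸ sq_pos_of_ne_zero h0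

theorem σπ (h : 0 < s q) : σ (π q) = q := by
  obtain ⟨h1, h2, -⟩ := H.πσ _ (H.ps_pos (by linarith) h.ne')
  exact H.ext _ _ h1 (by rw [h2, ← H.sq q (by linarith), Real.sqrt_sq h.le])

theorem sσ (h : 0 < ps x) : 0 < s (σ x) := (H.πσ x h).2.1 ▸ Real.sqrt_pos.2 h

theorem σπ_ev (h : 0 < s q) : ∀ᶠ z in 𝓝 q, σ (π z) = z :=
  (H.sms.cont.continuousAt.eventually (lt_mem_nhds h)).mono fun _ hz => H.σπ hz

theorem πσ_ev (h : 0 < ps x) : ∀ᶠ z in 𝓝 x, π (σ z) = z :=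
  (H.smp.cont.continuousAt.eventually (lt_mem_nhds h)).mono fun z hz => (H.πσ z hz).1

theorem τ_fold (h : s q = 0) : τ q = q := by
  obtain ⟨h1, h2, -⟩ := H.πτ q (by rw [h]; norm_num)
  exact H.ext _ _ h1 (by rw [h2, h, neg_zero])

theorem sq_ev (h : -2 < s q) : (fun z => s z ^ 2) =ᶠ[𝓝 q] fun z => ps (π z) :=
  (H.sms.cont.continuousAt.eventually (lt_mem_nhds h)).mono fun z hz => H.sq z hz.le

theorem pd_sq (h : -2 < s q) (i : Fin n) : 2 * s q * pd i s q = pd i (fun z => ps (π z)) q := by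
  rw [← pd_congr (H.sq_ev h), pd_pow (H.sms.diff q)]
  norm_num

/-- the critical points of `s` -/
theorem crit (h : -2 < s q) (h0 : ∀ i, pd i s q = 0) (i : Fin n) : pd i ps (π q) = 0 := by
  have h1 : Function.Injective (jm π q).mulVec := fun a b e => sub_eq_zero.1
    (H.imm q _ (by rw [mulVec_sub, e, sub_self]) (by simp [h0]))
  have h2 : Function.Injective (jm π q).vecMul :=
    vecMul_injective_iff_isUnit.2 (mulVec_injective_iff_isUnit.1 h1)
  refine congrFun (h2 (a₁ := fun a => pd a ps (π q)) (a₂ := 0) (funext fun k => ?_)) i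
  have := H.pd_sq h k
  rw [h0, mul_zero, (H.smπ q).pd (H.smp.diff _)] at this
  simp only [vecMul, dotProduct, Pi.zero_apply, zero_mul, Finset.sum_const_zero]
  rw [this]
  exact Finset.sum_congr rfl fun _ _ => mul_comm _ _

theorem met (hg : Met g) (hw : Smooth w) (w0 : ∀ z, 0 ≤ w z)
    (h : ∀ z, w z = 0 → -2 < s z ∧ s z ≠ 0) : Met (gD π g w s) :=
  met_add hg H.smπ H.sms hw w0 fun z ξ h1 h2 => H.imm z ξ h1 <| by
    refine (mul_eq_zero.1 h2).elim (fun k => ?_) (pow_eq_zero_iff two_ne_zero).1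
    refine (mul_eq_zero.1 (show 2 * s z * _ = 0 from ?_)).resolve_left
      (mul_ne_zero two_ne_zero (h z k).2)
    have e : ∀ i, 2 * s z * (ξ i * pd i s z) = ∑ a, ξ i * (jm π z a i * pd a ps (π z)) := fun i => by
      rw [mul_left_comm, H.pd_sq (h z k).1, (H.smπ z).pd (H.smp.diff _), Finset.mul_sum]
    rw [Finset.mul_sum, Finset.sum_congr rfl fun i _ => e i, Finset.sum_comm]
    refine Finset.sum_eq_zero fun a _ => ?_
    have := congrArg (· * pd a ps (π z)) (congrFun h1 a)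
    simp only [mulVec, dotProduct, Finset.sum_mul, Pi.zero_apply, zero_mul] at this
    rw [← this]
    exact Finset.sum_congr rfl fun i _ => by ring

/-- the reflection is an isometry -/
theorem iso_τ (hG : Met (gD π g w s)) (h : |s q| < 2) (hw : ∀ᶠ z in 𝓝 q, w (τ z) = w z) :
    IsoM τ (gD π g w s) (gD π g w s) q := by
  have h1 : ∀ᶠ z in 𝓝 q, |s z| < 2 := H.sms.cont.abs.continuousAt.eventually (gt_mem_nhds h)
  refine ⟨h1.mono fun z hz => (H.πτ z hz).2.2, hG, hG, ?_⟩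
  filter_upwards [h1.eventually_nhds, hw] with z k1 k2
  have k3 := (H.πτ z k1.self_of_nhds).2.2
  have k4 : ∀ i, pd i (fun y => s (τ y)) z = -pd i s z := fun i => by
    rw [pd_congr (h := fun y => -s y) (k1.mono fun y hy => (H.πτ y hy).2.1), pd_neg]
  unfold gD
  rw [pull_add, pull_smul]
  funext i j
  beta_reduce
  rw [pull_pull (H.smπ _) k3, k3.pull_dd (H.sms.diff _) (H.sms.diff _), k4, k4, k2, neg_mul_neg,
    pull_congr (Ψ := π) (S := g) (k1.mono fun y hy => (H.πτ y hy).1) rfl]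

/-- off the fold the metric is a metric `gb` -/
theorem iso_gb (hg : Met g) (hG : Met (gD π g w s)) (h : -2 < s q) {p : ℝ → ℝ}
    (hp : ContDiff ℝ ∞ p) (hw : ∀ᶠ z in 𝓝 q, w z = p (s z ^ 2) ^ 2 * (4 * s z ^ 2)) :
    IsoM π (Y.C.gb g (fun x => p (ps x)) ps) (gD π g w s) q := by
  refine ⟨.of_forall H.smπ, Y.C.GbH.met_gb hg (hp.compM H.smp) H.smp, hG, ?_⟩
  filter_upwards [H.sms.cont.continuousAt.eventually (lt_mem_nhds h), hw] with z k1 k2
  have e : Y.C.gb g (fun x => p (ps x)) ps =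
      fun x i j => g x i j + p (ps x) ^ 2 * (pd i ps x * pd j ps x) := by
    funext x i j
    rw [Y.C.gb, mul_assoc]
  rw [e, pull_add, pull_smul]
  funext i j
  beta_reduce
  rw [(H.smπ z).pull_dd (H.smp.diff _) (H.smp.diff _), ← H.pd_sq k1, ← H.pd_sq k1, gD, k2,
    ← H.sq z k1.le]
  ring

/-! ### the end -/

variable (hR : R0 M ≤ Ra) (hφ : ∀ x, Ra ≤ ‖px x‖ → 0 < φ x)
include hR hφ

omit hR in
theorem ps_far (hx : Ra ≤ ‖px x‖) : 0 < ps x := (hφ x hx).trans_le (H.le x)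

omit hφ in
theorem px_σ (hx : Ra ≤ ‖px x‖) : px (σ x) = l • px x := by
  have := H.yp _ hx
  rw [yp_px (by linarith)] at this
  rw [← this, px_yp]
  rw [norm_smul, Real.norm_of_nonneg H.l0.le]
  linarith [H.big, mul_le_mul_of_nonneg_left hx H.l0.le]

theorem π_yp {y : E n} (hy : l * Ra ≤ ‖y‖) : π (P366M.yp y) = P366M.yp (l⁻¹ • y) ∧
    Ra ≤ ‖l⁻¹ • y‖ ∧ 0 < s (P366M.yp y) := by
  have h1 : Ra ≤ ‖l⁻¹ • y‖ := by
    rwa [norm_smul, Real.norm_of_nonneg (inv_pos.2 H.l0).le, le_inv_mul_iff₀ H.l0]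
  have h2 := H.yp _ h1
  have h3 := H.ps_far hφ (x := P366M.yp (l⁻¹ • y)) (by rwa [px_yp (by linarith)])
  rw [smul_inv_smul₀ H.l0.ne'] at h2
  rw [h2]
  exact ⟨(H.πσ _ h3).1, h1, H.sσ h3⟩

theorem far (hq : l * Ra ≤ ‖px q‖) : 0 < s q ∧ Ra ≤ ‖px (π q)‖ ∧ px (π q) = l⁻¹ • px q := by
  obtain ⟨h1, h2, h3⟩ := H.π_yp hR hφ hq
  rw [yp_px (by linarith [H.big])] at h1 h3
  rw [h1, px_yp (by linarith)]
  exact ⟨h3, h2, rfl⟩

theorem far_norm (hq : l * Ra ≤ ‖px q‖) : ‖px q‖ = l * ‖px (π q)‖ := by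
  rw [(H.far hR hφ hq).2.2, norm_smul, Real.norm_of_nonneg (inv_pos.2 H.l0).le,
    mul_inv_cancel_left₀ H.l0.ne']

theorem px_le {r : ℝ} (hr : Ra ≤ r) (h : ‖px (π q)‖ ≤ r) : ‖px q‖ ≤ l * r := by
  have := mul_le_mul_of_nonneg_left hr H.l0.le
  rcases le_total (l * Ra) ‖px q‖ with k | k
  · rw [H.far_norm hR hφ k]
    exact mul_le_mul_of_nonneg_left h H.l0.le
  · linarith

theorem cpt (r : ℝ) : IsCompact {q | ‖px (π q)‖ ≤ r} :=
  (isCompact_px D (l * max Ra r)).of_isClosed_subset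
    (isClosed_le (cont_npx.comp H.cπ) continuous_const)
    fun _ hq => H.px_le hR hφ (le_max_left _ _) (le_max_of_le_right hq)

theorem jm_far (hq : l * Ra < ‖px q‖) : jm π q = l⁻¹ • (1 : Matrix (Fin n) (Fin n) ℝ) := by
  have h1 := H.far hR hφ hq.le
  have h2 : R0 D ≤ ‖px q‖ := by linarith [H.big]
  have h3 : R0 M ≤ ‖l⁻¹ • px q‖ := h1.2.2 ▸ hR.trans h1.2.1
  have h4 : π q = ye Mfe.o (l⁻¹ • px q) := by
    rw [← h1.2.2]; exact (yp_px (by linarith [h1.2.1])).symm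
  have h5 : mp (ch q) (ch (π q)) π =ᶠ[𝓝 (pt q)] fun z => l⁻¹ • z := by
    have k1 := symm_ev (j := (Mfe.o : Nd D)) h2
    have k2 : Tendsto (fun z : E n => l⁻¹ • z) (𝓝 (px q)) (𝓝 (l⁻¹ • px q)) :=
      (continuous_const_smul _).tendsto _
    rw [show ye Mfe.o (px q) = q from yp_px (by linarith)] at k1
    rw [pt_far h2, h4]
    filter_upwards [k1, ev_lt_norm hq, k2.eventually (symm_ev (j := (Mfe.o : Nd M)) h3)]
      with z m1 m2 m3
    rw [mp, m1, show π (ye Mfe.o z) = _ from (H.π_yp hR hφ m2.le).1, P366M.yp, ← m3,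
      right_inv (ch_mem _)]
  rw [jm_eq, jac_congr h5, ← jac_id (pt q)]
  ext k i
  exact P366Z.pd_const_mul _ _

end Db

end Vale.Agent.P366M.G
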