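import Vale.Agent.P366Q.O.Rows
import Vale.Agent.P366M.Map2

/-!
# P366B: the double with three sheets; definitions and statements
-/

open MeasureTheory Metric Filter Topology Set Matrix
open scoped ContDiff ENNReal
open Vale.Agent.P366 Vale.Agent.P366.Stmt Vale.Agent.P366Z Vale.Agent.P366D

noncomputable section

namespace Vale.Agent.P366M.G

/-- the double `D` over `{0 ≤ φ}`: for `-2 ≤ s` it is the set `s² = ps`; `σ` is the section of the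
upper sheet, `τ` the reflection, and the end of `D` is the end of the upper sheet, scaled by `l` -/
structure Db {n : ℕ} {M D : Type} [Mfe n M] [Mfe n D] (φ ps : M → ℝ) (Ra R l : ℝ) (π : D → M)
    (s : D → ℝ) (σ : M → D) (τ : D → D) : Prop where
  smp : Smooth ps
  inn : ∀ x, ‖px x‖ ≤ R → ps x = φ x
  le : ∀ x, φ x ≤ ps x
  smπ : ∀ q, SmM π q
  sms : Smooth s
  imm : ∀ q (ξ : Fin n → ℝ), jm π q *ᵥ ξ = 0 → ∑ i, ξ i * pd i s q = 0 → ξ = 0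
  ext : ∀ q q', π q = π q' → s q = s q' → q = q'
  sq : ∀ q, -2 ≤ s q → s q ^ 2 = ps (π q)
  πσ : ∀ x, 0 < ps x → π (σ x) = x ∧ s (σ x) = √(ps x) ∧ SmM σ x
  πτ : ∀ q, |s q| < 2 → π (τ q) = π q ∧ s (τ q) = -s q ∧ SmM τ q
  l0 : 0 < l
  big : R0 D + 1 ≤ l * Ra
  yp : ∀ y : E n, Ra ≤ ‖y‖ → yp (l • y) = σ (yp y)

/-- **DB**: the double exists -/
def DB : Prop := ∀ (n : ℕ) (M : Type) [Mfe n M] (φ : M → ℝ) (R' Ra R : ℝ), 3 ≤ n → IsExt φ →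
  (∃ x, φ x = 0) → (∀ x, φ x ≤ 1) → (∀ x, R' ≤ ‖px x‖ → φ x = 1) → R0 M ≤ R' → R' < Ra → R' ≤ R →
  ∃ (D : Type) (_ : Mfe n D) (ps : M → ℝ) (l : ℝ) (π : D → M) (s : D → ℝ) (σ : M → D) (τ : D → D),
    Db φ ps Ra R l π s σ τ

/-- the metric `π^* g + w ds²` -/
def gD {n : ℕ} {M D : Type} [Mf0 n M] [Mf0 n D] (π : D → M) (g : Fld n M) (w s : D → ℝ) :
    Fld n D := fun q i j => pull π g q i j + w q * (pd i s q * pd j s q)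

/-- **VOL**: the volume of the neck is small -/
def VOL : Prop := ∀ (n : ℕ) (M D : Type) [Mfe n M] [Mfe n D] (φ ps : M → ℝ) (Ra R l : ℝ) π (s : D → ℝ)
  σ τ (g : Fld n M) (W : ℝ), Db φ ps Ra R l π s σ τ → Met g →
  (∀ x, ps x = 0 → ‖px x‖ ≤ R ∧ ∃ i, pd i ps x ≠ 0) → ∀ e > (0 : ℝ), ∃ ε > (0 : ℝ),
    ∀ w : D → ℝ, Met (gD π g w s) → (∀ q, |s q| < 3 / 2 → 0 ≤ w q ∧ w q ≤ W) →
      (∀ q, |s q| < 3 / 2 → ε ≤ s q ^ 2 → w q = 0) → ∀ A : Set M, IsOpen A →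
        vol (gD π g w s) {q | |s q| < 3 / 2 ∧ π q ∈ A} ≤ 2 * vol g A + ENNReal.ofReal e

/-- **POLE**: the profile of the shield of the middle sheet, a function of `t = ‖px‖²` -/
def POLE : Prop := ∀ A > (0 : ℝ), ∀ e > (0 : ℝ), ∀ a ≥ (1 : ℝ), ∀ T₀ : ℝ, ∃ T ≥ T₀, a + 1 < T ∧
  ∃ K : ℝ → ℝ, (∀ t ≤ a, K t = 0) ∧ (∀ t < T, ContDiffAt ℝ ∞ K t ∧ 0 ≤ K t ∧ 0 ≤ deriv K t ∧
    (t ≤ a + 1 → A * √t * deriv K t ≤ e) ∧ (a + 1 ≤ t → A * √t * deriv K t ≤ K t ^ 2)) ∧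
    Tendsto K (𝓝[<] T) atTop ∧
    ∀ θ > (0 : ℝ), ∃ h₁, ∀ t < T, h₁ ≤ K t → deriv K t ≤ θ * K t ^ 2

end Vale.Agent.P366M.G
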