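import Vale.Agent.P366B.Hm
import Vale.Agent.P366H.Shf0

/-!
# P366B: the data for the shield
-/

open MeasureTheory Metric Filter Topology Set Matrix
open scoped ContDiff ENNReal
open Vale.Agent.P366 Vale.Agent.P366.Stmt Vale.Agent.P366Z Vale.Agent.P366D

noncomputable section

namespace Vale.Agent.P366M.G

theorem Db.sf {n : ℕ} {M D : Type} [Mfe n M] [Mfe n D] {φ ps : M → ℝ} {Ra R l : ℝ} {π : D → M}
    {s : D → ℝ} {σ : M → D} {τ : D → D} (H : Db φ ps Ra R l π s σ τ) {g : Fld n M} {U : M → ℝ}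
    {c : ℝ} {G : Fld n D} (F : Fr φ Ra l π g U c G) {k P : D → ℝ} {k₀ A κ a m C Ra' Rb d : ℝ}
    {O : Set D} {N : ℕ} {b : Fin N → D → ℝ} (sk : Smooth k) (k0 : 0 < k₀)
    (hk : ∀ q, k₀ ≤ k q ∧ k q ≤ 1) (fk : ∀ q, ‖fd k q‖ ≤ A)
    (lk : ∀ q, l * Ra ≤ ‖px q‖ → lap G k q = 0) (tk : Tendsto k (cocompact D) (𝓝 κ))
    (tU : Tendsto U (cocompact M) (𝓝 a)) (m0 : 0 < m)
    (hU : ∀ x, m ≤ U x ∧ U x ≤ C ∧ |lap g U x / U x| ≤ C)
    (sup : ∀ x, Ra ≤ ‖px x‖ → lap g U x ≤ 0) (h : Ra < Ra') (S : S1 (cf k G) O P (l * Rb) d b) :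
    Sf (g0 π U c G) (fun q => c * U (π q) * k q) O P l Ra' Rb C ((m * k₀) ^ bb n) (C ^ bb n) := by
  have p : ∀ q, 0 < k q := fun q => k0.trans_le (hk q).1
  have V0 := V0 F
  have U0 := F.wa.wt.pos
  have c0 := F.c0
  have w : ∀ q, l * Ra ≤ ‖px q‖ → wl (g0 π U c G) (fun q => c * U (π q)) k q = 0 := fun q hq =>
    (mul_eq_zero.1 ((H.lap0 F k q).symm.trans (lk q hq))).resolve_left
      (Real.rpow_pos_of_pos (V0 q) _).ne'
  obtain ⟨γ, hγ⟩ := (H.wa0 F).asy1 F.dim (H.met0 F) (H.flat0 F h) sk (A := 1)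
    (fun q => abs_le.2 ⟨by linarith [p q], (hk q).2⟩) w
    ((tU.comp (H.tendsto_π F)).const_mul c) tk
  refine ⟨H.met0 F, H.flat0 F h, H.l0, (H.wa0 F).mul (H.met0 F) sk k0 hk fk w,
    ⟨_, γ, hγ.congr (R := 0) fun q _ => mul_comm _ _⟩, fun q hq => ?_, S.opn, S.smP, S.P0, S.cls,
    (cf0 F p).symm ▸ S.big, S.out⟩
  have h1 := (mul_le_mul_of_nonneg_left h.le H.l0.le).trans hq
  have h2 := (H.far F.flat.lt.le F.pos h1).2.1
  have l2 : 0 < l ^ 2 := pow_pos H.l0 2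
  have b0 := (bb_pos F.dim).le
  have e1 : lap (g0 π U c G) (fun q => c * U (π q) * k q) q =
      k q * ((l ^ 2)⁻¹ * (c * lap g U (π q))) := by
    rw [(H.met0 F).lap_mul_wl ((H.smV F).c2 q) (sk.c2 q) (V0 q).ne', w q h1, zero_div, add_zero,
      H.lap_far F h1 (cAt_const.mul (F.wa.wt.sm.c2 _)) .rfl, lap_const_mul]
  have e2 : l * (c * U (π q) * k q) ^ bb n = (U (π q) * k q) ^ bb n := by
    rw [mul_assoc c, Real.mul_rpow c0.le (mul_pos (U0 _) (p q)).le, ← mul_assoc, mul_comm l, F.cl,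
      one_mul]
  rw [e1, e2]
  refine ⟨mul_nonpos_of_nonneg_of_nonpos (p q).le (mul_nonpos_of_nonneg_of_nonpos (by positivity)
    (mul_nonpos_of_nonneg_of_nonpos c0.le (sup _ h2))), Real.rpow_le_rpow (by positivity)
    (mul_le_mul (hU _).1 (hk q).1 k0.le (U0 _).le) b0, Real.rpow_le_rpow (mul_pos (U0 _) (p q)).le
    ((mul_le_of_le_one_right (U0 _).le (hk q).2).trans (hU _).2.1) b0, fun _ => ?_⟩
  have h3 := (le_div_iff₀ (U0 _)).1 (abs_le.1 (hU (π q)).2.2).1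
  have h4 := mul_le_mul_of_nonneg_left h3 (show 0 ≤ k q * ((l ^ 2)⁻¹ * c) by
    have := p q; positivity)
  rw [div_eq_mul_inv]
  linarith

end Vale.Agent.P366M.G
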