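import Vale.Agent.P366B.Db
import Vale.Agent.P366M.Solv2

/-!
# P366B: the end of the double
-/

open MeasureTheory Metric Filter Topology Set Matrix
open scoped ContDiff ENNReal
open Vale.Agent.P366 Vale.Agent.P366.Stmt Vale.Agent.P366Z Vale.Agent.P366D

noncomputable section

namespace Vale.Agent.P366M.G

section W

variable {n : ℕ} {M : Type} [Mfs n M] {g : Fld n M} {V k : M → ℝ}

theorem wa_of (hg : Met g) (hV : Smooth V) {m A S R : ℝ} (m0 : 0 < m) (h1 : ∀ x, m ≤ V x ∧ V x ≤ A)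
    (h2 : ∀ x, R < ‖px x‖ → ‖fd V x‖ ≤ A ∧ ‖fd (fun y => lap g V y / V y) x‖ ≤ A ∧
      |lap g V x| ≤ S * ‖px x‖ ^ (-(n + 2) : ℝ)) : Wa g V := by
  have V0 : ∀ x, 0 < V x := fun x => m0.trans_le (h1 x).1
  have sQ : Smooth fun x => lap g V x / V x := CD.div (hg.sm_lap hV) hV fun x => (V0 x).ne'
  obtain ⟨K1, -, k1⟩ := fd_bdd_of_out hV.one fun y hy => (h2 y hy).1
  obtain ⟨K2, -, k2⟩ := fd_bdd_of_out sQ.one fun y hy => (h2 y hy).2.1
  obtain ⟨K3, -, k3⟩ := bdd_of_out sQ.cont (R := max R 1) (C := |S| / m) fun y hy => by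
    have a1 := Real.rpow_le_one_of_one_le_of_nonpos ((le_max_right _ _).trans hy.le)
      (show (-(n + 2) : ℝ) ≤ 0 by linarith [Nat.cast_nonneg (α := ℝ) n])
    rw [Real.norm_eq_abs, abs_div, abs_of_pos (V0 y)]
    exact div_le_div₀ (abs_nonneg S) (((h2 y ((le_max_left _ _).trans_lt hy)).2.2.trans
      (mul_le_mul_of_nonneg_right (le_abs_self S) (by positivity))).trans
      (mul_le_of_le_one_right (abs_nonneg S) a1)) m0 (h1 y).1
  exact ⟨⟨hV, m, m0, max (max A K1) (max K2 K3), fun x => ⟨(h1 x).1,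
    (h1 x).2.trans ((le_max_left _ _).trans (le_max_left _ _)),
    (k1 x).trans ((le_max_right _ _).trans (le_max_left _ _)),
    (k3 x).trans ((le_max_right _ _).trans (le_max_right _ _)),
    (k2 x).trans ((le_max_left _ _).trans (le_max_right _ _))⟩⟩, R + 1, S,
    fun x hx => (h2 x (by linarith)).2.2⟩

theorem _root_.Vale.Agent.P366M.Wa.mul (hV : Wa g V) (hg : Met g) (hk : Smooth k) {k₀ A R : ℝ}
    (k0 : 0 < k₀) (h1 : ∀ x, k₀ ≤ k x ∧ k x ≤ 1) (h2 : ∀ x, ‖fd k x‖ ≤ A)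
    (h3 : ∀ x, R ≤ ‖px x‖ → wl g V k x = 0) : Wa g fun x => V x * k x := by
  obtain ⟨m, m0, B, hB⟩ := hV.wt.bd
  obtain ⟨R', S, hS⟩ := hV.far
  have V0 := hV.wt.pos
  have sV := hV.wt.sm
  have p : ∀ x, 0 < k x := fun x => k0.trans_le (h1 x).1
  have B0 := (V0 (Classical.arbitrary M)).le.trans (hB _).2.1
  have A0 := (norm_nonneg _).trans (h2 (Classical.arbitrary M))
  have e : ∀ x, R ≤ ‖px x‖ → lap g (fun x => V x * k x) x = k x * lap g V x := fun x hx => by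
    rw [hg.lap_mul_wl (sV.c2 x) (hk.c2 x) (V0 x).ne', h3 x hx, zero_div, add_zero]
  refine wa_of hg (CD.mul sV hk) (mul_pos m0 k0) (A := B * A + B) (S := S) (R := max R R')
    (fun x => ⟨mul_le_mul (hB x).1 (h1 x).1 k0.le (V0 x).le, ?_⟩) fun x hx => ⟨?_, ?_, ?_⟩
  · nlinarith [mul_le_of_le_one_right (V0 x).le (h1 x).2, (hB x).2.1]
  · rw [fd_mul (sV.diff x) (hk.diff x)]
    refine (norm_add_le _ _).trans (add_le_add ?_ ?_) <;> rw [norm_smul, Real.norm_eq_abs]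
    · exact mul_le_mul ((abs_of_pos (V0 x)).trans_le (hB x).2.1) (h2 x) (norm_nonneg _) B0
    · rw [abs_of_pos (p x)]
      exact (mul_le_of_le_one_left (norm_nonneg _) (h1 x).2).trans (hB x).2.2.1
  · rw [fd_congr (g := fun y => lap g V y / V y)
      ((ev_lt_px ((le_max_left _ _).trans_lt hx)).mono fun y hy => ?_)]
    · nlinarith [(hB x).2.2.2.2]
    · have := (p y).ne'
      have := (V0 y).ne'
      simp only [e y hy.le]
      field_simp
  · rw [e x ((le_max_left _ _).trans hx.le), abs_mul, abs_of_pos (p x)]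
    exact (mul_le_of_le_one_left (abs_nonneg _) (h1 x).2).trans
      (hS x ((le_max_right _ _).trans hx.le))

end W

theorem lap_cf_const {n : ℕ} {M : Type} [Mf0 n M] {g : Fld n M} (hg : Met g) (hn : 3 ≤ n) {a : ℝ}
    (a0 : 0 < a) {u : M → ℝ} {x : M} (hu : CAt 2 u x) :
    lap (cf (fun _ => a) g) u x = a ^ (-(2 * bb n)) * lap g u x := by
  have h := nm2_pos hn
  rw [hg.lap_cf hn fun _ => a0, hg.wl_eq (dAt_const a) hu, ip_const_left, mul_zero, add_zero,
    ← mul_assoc, ← Real.rpow_two, ← Real.rpow_add a0]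
  congr 2
  unfold bb
  field_simp
  ring

/-- the metric which is Euclidean in the end of the double -/
def g0 {n : ℕ} {M D : Type} (π : D → M) (U : M → ℝ) (c : ℝ) (G : Fld n D) : Fld n D :=
  cf (fun q => (c * U (π q))⁻¹) G

/-- the hypotheses about the end -/
structure Fr {n : ℕ} {M D : Type} [Mfe n M] [Mfe n D] (φ : M → ℝ) (Ra l : ℝ) (π : D → M)
    (g : Fld n M) (U : M → ℝ) (c : ℝ) (G : Fld n D) : Prop where
  dim : 3 ≤ n
  met : Met g
  flat : Flat g Ra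
  pos : ∀ x, Ra ≤ ‖px x‖ → 0 < φ x
  wa : Wa g U
  c0 : 0 < c
  cl : c ^ bb n * l = 1
  metG : Met G
  iso : ∀ q, l * Ra ≤ ‖px q‖ → IsoM π (cf U g) G q

namespace Db

variable {n : ℕ} {M D : Type} [Mfe n M] [Mfe n D] {φ ps : M → ℝ} {Ra R l : ℝ} {π : D → M}
  {s : D → ℝ} {σ : M → D} {τ : D → D} (H : Db φ ps Ra R l π s σ τ) {q : D} {g : Fld n M}
  {U : M → ℝ} {c : ℝ} {G : Fld n D} (F : Fr φ Ra l π g U c G)
include H F

omit H in
theorem V0 (q : D) : 0 < c * U (π q) := mul_pos F.c0 (F.wa.wt.pos _)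

theorem smV : Smooth fun q => c * U (π q) := CD.mul cd_const (H.sm F.wa.wt.sm)

theorem met0 : Met (g0 π U c G) :=
  F.metG.cf (CD.inv (H.smV F) fun q => (V0 F q).ne') fun q => inv_pos.2 (V0 F q)

omit H in
theorem cf0 {k : D → ℝ} (k0 : ∀ q, 0 < k q) :
    cf (fun q => c * U (π q) * k q) (g0 π U c G) = cf k G := by
  rw [g0, cf_cf (fun q => mul_pos (V0 F q) (k0 q)) fun q => inv_pos.2 (V0 F q)]
  congr 1
  funext q
  rw [mul_right_comm, mul_inv_cancel₀ (V0 F q).ne', one_mul]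

theorem lap0 (u : D → ℝ) (q : D) :
    lap G u q = (c * U (π q)) ^ (-(n * bb n)) * wl (g0 π U c G) (fun q => c * U (π q)) u q := by
  have := cf0 F (k := fun _ => 1) fun _ => one_pos
  simp only [mul_one, cf_one] at this
  rw [← (H.met0 F).lap_cf F.dim (V0 F), this]

theorem iso0 (hq : l * Ra ≤ ‖px q‖) : IsoM π (cf (fun _ => c⁻¹) g) (g0 π U c G) q := by
  have U0 := F.wa.wt.pos
  have e : cf (fun x => (c * U x)⁻¹) (cf U g) = cf (fun _ => c⁻¹) g := by
    rw [cf_cf (fun x => inv_pos.2 (mul_pos F.c0 (U0 x))) U0]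
    congr 1
    funext x
    rw [mul_inv, mul_assoc, inv_mul_cancel₀ (U0 x).ne', mul_one]
  rw [← e]
  exact (F.iso q hq).cf (e ▸ F.met.cf cd_const fun _ => inv_pos.2 F.c0) (H.met0 F) .rfl

omit H in
theorem c_pow : c⁻¹ ^ (2 * bb n) = l ^ 2 := by
  rw [mul_comm, Real.rpow_mul (inv_pos.2 F.c0).le, Real.inv_rpow F.c0.le,
    ← eq_inv_of_mul_eq_one_right F.cl, Real.rpow_two]

theorem flat0 {Rb : ℝ} (h : Ra < Rb) : Flat (g0 π U c G) (l * Rb) := by
  have h1 := mul_lt_mul_of_pos_left h H.l0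
  refine ⟨H.big.trans h1.le, fun q hq => ?_⟩
  have h2 := (H.iso0 F (h1.le.trans hq)).mat_eq
  have h3 : mat g (π q) = 1 := by
    rw [← mat_eu (π q), P366M.mat, P366M.mat,
      F.flat.eq _ (H.far F.flat.lt.le F.pos (h1.le.trans hq)).2.1]
  rw [mat_cf, H.jm_far F.flat.lt.le F.pos (h1.trans_le hq), h3, c_pow F, ← mat_eu q] at h2
  refine h2.trans ?_
  rw [mat_eu, transpose_smul, transpose_one, smul_mul_smul_comm, smul_mul_smul_comm, mul_one,
    mul_one, show l⁻¹ * l ^ 2 * l⁻¹ = 1 by field_simp [H.l0.ne'], one_smul]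
  exact (mat_eu q).symm

theorem lap_far (hq : l * Ra ≤ ‖px q‖) {u : M → ℝ} {w : D → ℝ} (hu : CAt 2 u (π q))
    (e : w =ᶠ[𝓝 q] fun z => u (π z)) : lap (g0 π U c G) w q = (l ^ 2)⁻¹ * lap g u (π q) := by
  rw [(H.iso0 F hq).lap hu e, lap_cf_const F.met F.dim (inv_pos.2 F.c0) hu,
    Real.rpow_neg (inv_pos.2 F.c0).le, c_pow F]

theorem fd_far (hq : l * Ra < ‖px q‖) {u : M → ℝ} (hu : DAt u (π q)) :
    ‖fd (fun z => u (π z)) q‖ = l⁻¹ * ‖fd u (π q)‖ := by
  have h := inv_pos.2 H.l0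
  rw [← sq_eq_sq₀ (norm_nonneg _) (by positivity), mul_pow, norm_fderiv_sq hu,
    norm_fderiv_sq ((H.smπ q).dAt hu), Finset.mul_sum]
  refine Finset.sum_congr rfl fun i _ => ?_
  rw [(H.smπ q).pd hu, H.jm_far F.flat.lt.le F.pos hq, ← mul_pow]
  simp [one_apply]

theorem wa0 : Wa (g0 π U c G) fun q => c * U (π q) := by
  obtain ⟨m, m0, B, hB⟩ := F.wa.wt.bd
  obtain ⟨R', S, hS⟩ := F.wa.far
  have U0 := F.wa.wt.pos
  have sU := F.wa.wt.sm
  have sC : Smooth fun x => c * U x := CD.mul cd_const sU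
  have sQ : Smooth fun x => (l ^ 2)⁻¹ * (lap g U x / U x) :=
    CD.mul cd_const (CD.div (F.met.sm_lap sU) sU fun x => (U0 x).ne')
  have c0 := F.c0
  have l0 := H.l0
  have B0 := (U0 (Classical.arbitrary M)).le.trans (hB _).2.1
  have e : ∀ q, l * Ra ≤ ‖px q‖ → lap (g0 π U c G) (fun q => c * U (π q)) q =
      (l ^ 2)⁻¹ * (c * lap g U (π q)) := fun q hq => by
    rw [H.lap_far F hq (sC.c2 _) .rfl, lap_const_mul]
  refine wa_of (H.met0 F) (H.smV F) (mul_pos c0 m0) (R := l * max Ra R')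
    (A := c * B + l⁻¹ * (c * B) + l⁻¹ * ((l ^ 2)⁻¹ * B)) (S := c * S * l ^ (n : ℝ))
    (fun q => ⟨mul_le_mul_of_nonneg_left (hB _).1 c0.le,
      (mul_le_mul_of_nonneg_left (hB _).2.1 c0.le).trans (by
        rw [add_assoc]; exact le_add_of_nonneg_right (by positivity))⟩) fun q hq => ?_
  have h1 : l * Ra < ‖px q‖ := (mul_le_mul_of_nonneg_left (le_max_left _ _) l0.le).trans_lt hq
  have h2 := H.far_norm F.flat.lt.le F.pos h1.le
  have fc : ∀ (a : ℝ) (u : M → ℝ), 0 < a → DAt u (π q) → ‖fd u (π q)‖ ≤ B →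
      ‖fd (fun x => a * u x) (π q)‖ ≤ a * B := fun a u a0 hu hb => by
    rw [fd_comp_deriv ((hasDerivAt_id' (u (π q))).const_mul a) hu, norm_smul, mul_one,
      Real.norm_of_nonneg a0.le]
    exact mul_le_mul_of_nonneg_left hb a0.le
  refine ⟨?_, ?_, ?_⟩
  · rw [H.fd_far F h1 (sC.diff _)]
    have := mul_le_mul_of_nonneg_left (fc c U c0 (sU.diff _) (hB _).2.2.1) (inv_pos.2 l0).le
    have : 0 ≤ c * B + l⁻¹ * ((l ^ 2)⁻¹ * B) := by positivity
    linarith
  · rw [fd_congr (g := fun z => (l ^ 2)⁻¹ * (lap g U (π z) / U (π z)))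
      ((ev_lt_px h1).mono fun z hz => ?_), H.fd_far F h1 (sQ.diff _)]
    · have := mul_le_mul_of_nonneg_left (fc (l ^ 2)⁻¹ _ (by positivity)
        ((CD.div (F.met.sm_lap sU) sU fun x => (U0 x).ne').differentiable (by simp) _)
        (hB _).2.2.2.2) (inv_pos.2 l0).le
      have : 0 ≤ c * B + l⁻¹ * (c * B) := by positivity
      linarith
    · have := (U0 (π z)).ne'
      simp only [e z hz.le]
      field_simp
  · have h3 : R' ≤ ‖px (π q)‖ := le_of_mul_le_mul_left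
      ((mul_le_mul_of_nonneg_left (le_max_right _ _) l0.le).trans (hq.le.trans_eq h2)) l0
    rw [e q h1.le, h2, Real.mul_rpow l0.le (norm_nonneg _), abs_mul, abs_mul, abs_of_pos c0,
      abs_of_pos (by positivity)]
    refine (mul_le_mul_of_nonneg_left (mul_le_mul_of_nonneg_left (hS _ h3) c0.le)
      (by positivity)).trans_eq ?_
    rw [Real.rpow_neg l0.le, Real.rpow_add l0, Real.rpow_two]
    field_simp

theorem tendsto_π : Tendsto π (cocompact D) (cocompact M) := fun _ hs => by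
  obtain ⟨r, hr⟩ := ev_cocompact.1 hs
  refine ev_cocompact.2 ⟨l * max Ra r, fun q hq => hr _ (le_of_mul_le_mul_left ?_ H.l0)⟩
  rw [← H.far_norm F.flat.lt.le F.pos
    ((mul_le_mul_of_nonneg_left (le_max_left _ _) H.l0.le).trans hq)]
  exact (mul_le_mul_of_nonneg_left (le_max_right _ _) H.l0.le).trans hq

theorem tendsto_σ : Tendsto σ (cocompact M) (cocompact D) := fun _ hs => by
  obtain ⟨r, hr⟩ := ev_cocompact.1 hs
  refine ev_cocompact.2 ⟨max Ra (r / l), fun x hx => hr _ ?_⟩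
  rw [H.px_σ F.flat.lt.le ((le_max_left _ _).trans hx), norm_smul, Real.norm_of_nonneg H.l0.le,
    ← div_le_iff₀' H.l0]
  exact (le_max_right _ _).trans hx

end Db

end Vale.Agent.P366M.G
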