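import Vale.Agent.P366E.Low2
import Vale.Agent.P366Q.G.Upd

/-!
# P366B: the function on the base
-/

open MeasureTheory Metric Filter Topology Set Matrix
open scoped ContDiff ENNReal
open Vale.Agent.P366 Vale.Agent.P366.Stmt Vale.Agent.P366Z Vale.Agent.P366D

noncomputable section

namespace Vale.Agent.P366M.G

theorem _root_.Vale.Agent.P366M.Wa.asy1 {n : ℕ} {M : Type} [Mfe n M] {g : Fld n M} {U h : M → ℝ}
    {ρ A R a c : ℝ} (hU : Wa g U) (hn : 3 ≤ n) (hg : Met g) (hf : Flat g ρ) (sh : Smooth h)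
    (bh : ∀ x, |h x| ≤ A) (e : ∀ x, R ≤ ‖px x‖ → wl g U h x = 0)
    (tU : Tendsto U (cocompact M) (𝓝 a)) (th : Tendsto h (cocompact M) (𝓝 c)) :
    ∃ γ, Asy (fun x => h x * U x) (c * a) γ :=
  let ⟨γ, k⟩ := hU.asyE hn hg hf sh bh e (tendsto_cocompact_iff.1 tU Mfe.o)
    (tendsto_cocompact_iff.1 th Mfe.o)
  ⟨γ, asy_iff.2 k⟩

namespace Su

variable {n : ℕ} {M D : Type} [Mfe n M] [Mfe n D] {g : Fld n M} {U φ ps : M → ℝ}
  {R' Ra R T l c ε e : ℝ} {π : D → M} {s y : D → ℝ} {σ : M → D} {τ : D → D} {x : M}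
  (S : Su g U φ ps R' Ra R T l c ε π s σ τ)
include S

theorem ps_far (hx : R' ≤ ‖px x‖) : 1 ≤ ps x := S.rd.one x hx ▸ S.db.le x

variable (Y : Py π s (gB π (cf U g) s ε) T e y)
include Y

theorem cσ (h : 0 < ps x) : CAt ∞ (fun z => y (σ z)) x :=
  (S.db.πσ x h).2.2.cAt le_rfl Y.sm.contDiffAt

theorem wl_σ (h : ε < ps x) : wl g U (fun z => y (σ z)) x = 0 := by
  have h0 := S.e0.1.trans h
  obtain ⟨h1, h2, -⟩ := S.db.πσ x h0
  have h3 := S.db.sσ h0
  have h4 := (S.db.isoB S.metU S.e0.1 (q := σ x) (by linarith)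
    (by rwa [h2, Real.sq_sqrt h0.le])).lap (u := fun z => y (σ z)) (w := y)
    (h1.symm ▸ (S.cσ Y h0).of_le two_le_oo) ((S.db.σπ_ev h3).mono fun z hz => by simp only [hz])
  rw [Y.harm _ ⟨by linarith, fun k => absurd k h3.not_gt.elim⟩, h1,
    S.fr.met.lap_cf S.fr.dim S.fr.wa.wt.pos] at h4
  exact (mul_eq_zero.1 h4.symm).resolve_left (Real.rpow_pos_of_pos (S.fr.wa.wt.pos x) _).ne'

end Su

/-- **HM** -/
theorem hm : HM := by
  intro n M D _ _ g U φ ps R' Ra R T l c ε π s σ τ e y a β η η'' R₁ f S Y hA η0 hf h1 h2 h3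
  have ε0 := S.e0.1
  have hn := S.fr.dim
  have cp := S.db.smp.cont
  have sU := S.fr.wa.wt.sm
  have k0 : ∀ x, R₁ ≤ ‖px x‖ → ε < ps x := fun x hx => by
    linarith [S.ps_far (S.le.trans (h1.trans hx)), S.e0.2]
  have η1 : 2 * η ≤ 1 := by
    obtain ⟨z, -, hz⟩ := exists_far (M := M) (by omega) Mfe.o R₁
    linarith [h3 _ hz, (Y.mem (σ (ye Mfe.o z))).2]
  obtain ⟨h, hh⟩ : ∃ h : M → ℝ, h = fun x => (if ε < ps x then f (2 * y (σ x) + -1) else 0) + η'' :=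
    ⟨_, rfl⟩
  have e1 : ∀ x, ε < ps x → h =ᶠ[𝓝 x] fun z => f (2 * y (σ z) + -1) + η'' := fun x hx =>
    (cp.continuousAt.eventually (lt_mem_nhds hx)).mono fun z hz => by rw [hh]; simp only [if_pos hz]
  have e2 : ∀ x, ps x < 2 * ε → h =ᶠ[𝓝 x] fun _ => η'' := fun x hx =>
    (cp.continuousAt.eventually (gt_mem_nhds hx)).mono fun z hz => by
      rw [hh]
      dsimp only
      split_ifs with k
      · have k1 := ε0.trans k
        rw [← sub_eq_add_neg, hf.zero _ (h2 _ (S.db.sσ k1).le (by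
          rw [(S.db.πσ z k1).2.1, Real.sq_sqrt k1.le]; exact hz.le)), zero_add]
      · exact zero_add _
  have c1 : ∀ x, ε < ps x → CAt ∞ (fun z => 2 * y (σ z) + -1) x := fun x hx =>
    (cAt_const.mul (S.cσ Y (ε0.trans hx))).add cAt_const
  have sh : Smooth h := cd_of_cAt le_rfl fun x => by
    rcases lt_or_ge ε (ps x) with k | k
    · exact ((hf.sm.contDiffAt.compM (c1 x k)).add cAt_const).congr_of_eventuallyEq (e1 x k)
    · exact cAt_const.congr_of_eventuallyEq (e2 x (by linarith))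
  have w1 : ∀ x, ε < ps x → wl g U h x = deriv (deriv f) (2 * y (σ x) + -1) *
      (U x ^ 2 * ip g (fun z => 2 * y (σ z) + -1) (fun z => 2 * y (σ z) + -1) x) := fun x hx => by
    rw [wl_congr .rfl (e1 x hx), wl_add_const, S.fr.met.wl_comp (sU.diff x)
      ((c1 x hx).of_le two_le_oo) (hf.sm.contDiffAt.of_le two_le_oo), wl_affine, S.wl_σ Y hx,
      mul_zero, mul_zero, zero_add]
  have w2 : ∀ x, R₁ ≤ ‖px x‖ → wl g U h x = 0 := fun x hx => by
    rw [w1 x (k0 x hx), ← sub_eq_add_neg, UpdH.d2_zero hf (h3 x hx), zero_mul]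
  have v1 : ∀ x, R₁ ≤ ‖px x‖ → h x = 2 * y (σ x) - 1 := fun x hx => by
    rw [(e1 x (k0 x hx)).self_of_nhds]
    simp only [← sub_eq_add_neg, hf.lin _ (h3 x hx), sub_add_cancel]
  have b1 : ∀ x, 0 < h x ∧ h x ≤ 1 := fun x => by
    have := hf.le
    rw [hh]
    dsimp only
    split_ifs
    · have m1 := UpdH.mono hf (show 2 * y (σ x) + -1 ≤ 1 by linarith [(Y.mem (σ x)).2])
      rw [hf.lin 1 η1] at m1
      exact ⟨by linarith [UpdH.nonneg hf (2 * y (σ x) + -1)], by linarith⟩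
    · exact ⟨by linarith, by linarith⟩
  obtain ⟨γ, hγ⟩ := S.fr.wa.asy1 hn S.fr.met S.fr.flat sh (A := 1)
    (fun x => abs_le.2 ⟨by linarith [(b1 x).1], (b1 x).2⟩) w2 (hA.tendsto hn) (c := 2 * 1 - 1)
    ((((Y.lim.comp (S.db.tendsto_σ S.fr)).const_mul 2).sub_const 1).congr'
      ((tendsto_npx.eventually (eventually_ge_atTop R₁)).mono fun x hx => (v1 x hx).symm))
  refine ⟨h, γ, sh, b1, fun x => ?_, w2, by convert hγ using 1; ring,
    fun x hx => (e2 x (by linarith)).self_of_nhds, v1⟩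
  rcases lt_or_ge ε (ps x) with k | k
  · rw [w1 x k]
    exact mul_nonneg (hf.d2 _) (mul_nonneg (sq_nonneg _) (S.fr.met.ip_nonneg _ _))
  · rw [wl_congr .rfl (e2 x (by linarith)), wl_const]

end Vale.Agent.P366M.G
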