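import Vale.Agent.P366B.Defs
import Vale.Agent.P366Y.T.Par

/-!
# P366B: the profile with a pole
-/

open Filter Topology Set Real
open scoped ContDiff

noncomputable section

namespace Vale.Agent.P366M.G

/-- **POLE** -/
theorem pole : POLE := by
  intro A hA e he a ha T₀
  obtain ⟨c, c1, hc⟩ := P366Y.ParH.st_bd
  set Q := A * A * (a + 2) * (2 * c + 3) / e with hQ
  have Q0 : 0 < Q := by positivity
  set r := max (max 1 Q) (T₀ - a) with hr
  have r1 : 1 ≤ r := le_max_of_le_left (le_max_left _ _)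
  have r2 : Q ≤ r := le_max_of_le_left (le_max_right _ _)
  have r3 : T₀ - a ≤ r := le_max_right _ _
  set T := a + 1 + r ^ 2 with hT
  have rr : 1 ≤ r ^ 2 := one_le_pow₀ r1
  set B := A * √T with hB
  have B0 : 0 < B := mul_pos hA (sqrt_pos.2 (by linarith))
  set K := fun t => smoothTransition (t - a) * (B * ((T - t)⁻¹ + (T - t)⁻¹ ^ 2)) with hK
  have hd : ∀ t < T, deriv K t = deriv smoothTransition (t - a) * (B * ((T - t)⁻¹ + (T - t)⁻¹ ^ 2)) +
      smoothTransition (t - a) * (B * ((T - t)⁻¹ ^ 2 + 2 * (T - t)⁻¹ ^ 3)) := fun t ht => by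
    have h1 : HasDerivAt (fun t => (T - t)⁻¹) ((T - t)⁻¹ ^ 2) t := by
      have := ((hasDerivAt_id t).const_sub T).fun_inv (sub_pos.2 ht).ne'
      simpa using this
    have h2 := (((smoothTransition.contDiff (n := 1)).differentiable one_ne_zero
      (t - a)).hasDerivAt.comp t ((hasDerivAt_id t).sub_const a)).mul
        ((h1.add (h1.pow 2)).const_mul B)
    refine h2.deriv.trans ?_
    simp only [Function.comp_apply, id, Pi.add_apply, Pi.pow_apply]
    ring
  have h1 : ∀ t < T, a + 1 ≤ t → K t = B * ((T - t)⁻¹ + (T - t)⁻¹ ^ 2) ∧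
      deriv K t = B * ((T - t)⁻¹ ^ 2 + 2 * (T - t)⁻¹ ^ 3) := fun t ht h => by
    have k : smoothTransition (t - a) = 1 := smoothTransition.one_of_one_le (by linarith)
    have k' : deriv smoothTransition (t - a) = 0 := IsLocalMax.deriv_eq_zero
      (.of_forall fun y => (smoothTransition.le_one y).trans k.ge)
    rw [hd t ht, hK, k']
    simp only [k, one_mul, zero_mul, zero_add, and_self]
  refine ⟨T, by nlinarith, by linarith, K, fun t ht => ?_, fun t ht => ?_, ?_, fun θ hθ => ?_⟩
  · simp only [hK, smoothTransition.zero_of_nonpos (sub_nonpos.2 ht), zero_mul]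
  · have u0 : 0 < (T - t)⁻¹ := inv_pos.2 (sub_pos.2 ht)
    have s0 := smoothTransition.nonneg (t - a)
    have s1 := smoothTransition.le_one (t - a)
    obtain ⟨d0, d1⟩ := hc (t - a)
    have i : ContDiffAt ℝ ∞ (fun t => (T - t)⁻¹) t :=
      (contDiffAt_const.sub contDiffAt_id).inv (sub_pos.2 ht).ne'
    refine ⟨(smoothTransition.contDiff.comp (contDiff_id.sub contDiff_const)).contDiffAt.mul
      (contDiffAt_const.mul (i.add (i.pow 2))), by positivity, by rw [hd t ht]; positivity,
      fun h => ?_, fun h => ?_⟩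
    · have u1 : (T - t)⁻¹ ≤ (r ^ 2)⁻¹ := inv_anti₀ (by positivity) (by linarith)
      have u2 : (T - t)⁻¹ ≤ 1 := u1.trans (inv_le_one_of_one_le₀ rr)
      rw [hd t ht]
      set u := (T - t)⁻¹
      have a1 : u ^ 2 ≤ u := by nlinarith
      have a2 : u ^ 3 ≤ u := by nlinarith
      have a3 : √t * √T ≤ (a + 2) * r := by
        rw [← sqrt_mul' _ (by linarith)]
        refine sqrt_le_iff.2 ⟨by positivity, ?_⟩
        have b : T ≤ (a + 2) * r ^ 2 := by nlinarith
        calc t * T ≤ (a + 2) * T := mul_le_mul_of_nonneg_right (by linarith) (by linarith)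
          _ ≤ (a + 2) * ((a + 2) * r ^ 2) := by gcongr
          _ = _ := by ring
      calc _ ≤ A * √t * (c * (B * (u + u)) + 1 * (B * (u + 2 * u))) := by gcongr
        _ = A * A * (√t * √T) * (2 * c + 3) * u := by rw [hB]; ring
        _ ≤ A * A * ((a + 2) * r) * (2 * c + 3) * (r ^ 2)⁻¹ := by gcongr
        _ = e * (Q / r) := by rw [hQ]; field_simp
        _ ≤ e * 1 := by gcongr; exact div_le_one_of_le₀ r2 (by linarith)
        _ = e := mul_one e
    · rw [(h1 t ht h).1, (h1 t ht h).2]
      set u := (T - t)⁻¹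
      calc _ ≤ B * (B * (u ^ 2 + 2 * u ^ 3 + u ^ 4)) := by
            refine mul_le_mul (by rw [hB]; gcongr) (mul_le_mul_of_nonneg_left
              (le_add_of_nonneg_right (by positivity)) B0.le) (by positivity) B0.le
        _ = _ := by ring
  · have i : Tendsto (fun t => (T - t)⁻¹) (𝓝[<] T) atTop := tendsto_inv_nhdsGT_zero.comp
      (tendsto_nhdsWithin_iff.2 ⟨(Continuous.tendsto' (by fun_prop) T 0 (by simp)).mono_left
        nhdsWithin_le_nhds, eventually_mem_nhdsWithin.mono fun t (ht : t < T) => sub_pos.2 ht⟩)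
    refine tendsto_atTop_mono' _ ?_ (i.const_mul_atTop B0)
    filter_upwards [Ioo_mem_nhdsLT (show a + 1 < T by linarith)] with t ht
    rw [(h1 t ht.2 ht.1.le).1]
    gcongr
    exact le_add_of_nonneg_right (sq_nonneg _)
  · set v := max 1 (2 / (θ * B)) with hv
    have v1 : 1 ≤ v := le_max_left _ _
    refine ⟨B * (v + v ^ 2) + 1, fun t ht h => ?_⟩
    have u0 : 0 < (T - t)⁻¹ := inv_pos.2 (sub_pos.2 ht)
    have u1 : v ≤ (T - t)⁻¹ := by
      by_contra! k
      have : K t ≤ 1 * (B * (v + v ^ 2)) := by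
        simp only [hK]
        gcongr
        exact smoothTransition.le_one _
      linarith
    have t1 : a + 1 ≤ t := by
      have := (one_le_inv₀ (sub_pos.2 ht)).1 (v1.trans u1)
      linarith
    rw [(h1 t ht t1).1, (h1 t ht t1).2]
    set u := (T - t)⁻¹
    have a1 : 2 ≤ θ * B * u := by
      have := (le_max_right _ _).trans u1
      rwa [div_le_iff₀' (by positivity)] at this
    have a2 : 0 < θ * B := by positivity
    have a3 : 1 + 2 * u ≤ θ * B * (1 + u) ^ 2 := by nlinarith
    calc _ = B * u ^ 2 * (1 + 2 * u) := by ring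
      _ ≤ B * u ^ 2 * (θ * B * (1 + u) ^ 2) := by gcongr
      _ = _ := by ring

end Vale.Agent.P366M.G
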