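import Vale.Agent.P366B.Far

/-!
# P366B: the potential on the double
-/

open MeasureTheory Metric Filter Topology Set Matrix
open scoped ContDiff ENNReal
open Vale.Agent.P366 Vale.Agent.P366.Stmt Vale.Agent.P366Z Vale.Agent.P366D

noncomputable section

namespace Vale.Agent.P366M.G

/-- the minimum principle on a closed set `K` with the inner part `O` -/
theorem wmp_cl {n : ℕ} {M : Type} [Mfe n M] {g : Fld n M} {U u c : M → ℝ} {O K : Set M}
    (hn : 3 ≤ n) (hg : Met g) (hU : Smooth U) (U0 : ∀ x, 0 < U x) (hO : IsOpen O)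
    (hK : IsClosed K) (h : O ⊆ K) (hu : ContinuousOn u K)
    (hi : ∀ x ∈ O, CAt 2 u x ∧ 0 ≤ c x ∧ wl g U u x ≤ c x * u x) (hf : ∀ x ∈ K, x ∉ O → 0 ≤ u x)
    (hR : ∀ e > 0, ∃ R, ∀ x ∈ O, R ≤ ‖px x‖ → -e ≤ u x) : ∀ x ∈ K, 0 ≤ u x := fun x hx => by
  by_cases k : x ∈ O
  · refine wmp n M g U u c O (by omega) hg hU U0 hO (hu.mono (closure_minimal h hK)) hi
      (fun z hz => ?_) hR x k
    rw [hO.frontier_eq] at hz
    exact hf z (closure_minimal h hK hz.1) hz.2
  · exact hf x hx k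

theorem wmp_cp {n : ℕ} {M : Type} [Mfe n M] {g : Fld n M} {u c : M → ℝ} {O K : Set M}
    (hn : 3 ≤ n) (hg : Met g) (hO : IsOpen O) (hK : IsCompact K) (h : O ⊆ K)
    (hu : ∀ x ∈ K, CAt 2 u x) (hi : ∀ x ∈ O, 0 ≤ c x ∧ lap g u x ≤ c x * u x)
    (hf : ∀ x ∈ K, x ∉ O → 0 ≤ u x) : ∀ x ∈ K, 0 ≤ u x :=
  wmp_cl hn hg (U := fun _ => 1) cd_const (fun _ => one_pos) hO hK.isClosed h
    (fun x hx => (hu x hx).continuousAt.continuousWithinAt)
    (fun x hx => ⟨hu x (h hx), (hi x hx).1, wl_one g u ▸ (hi x hx).2⟩) hf fun e _ =>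
      let ⟨R, _, hR⟩ := bdd_px hK
      ⟨R + 1, fun x hx k => by linarith [hR x (h hx)]⟩

variable {n : ℕ} {M D : Type} [Mfe n M] [Mfe n D]

/-- the square of the position of the base point -/
def rq (π : D → M) (q : D) : ℝ := ‖px (π q)‖ ^ 2

/-- the upper sheet and the inner part of the middle sheet -/
def Oz (π : D → M) (s : D → ℝ) (T : ℝ) : Set D := {q | -(3 / 2) < s q ∧ (s q < 0 → rq π q < T)}

/-- the hypotheses about the radii -/
structure Rd (φ : M → ℝ) (R' R T : ℝ) : Prop where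
  R0 : 0 ≤ R' ∧ 0 ≤ R
  le : ∀ x, φ x ≤ 1
  one : ∀ x, R' ≤ ‖px x‖ → φ x = 1
  T1 : R' ^ 2 ≤ T
  T2 : T + 3 ≤ R ^ 2

/-- the potential -/
structure Py (π : D → M) (s : D → ℝ) (G : Fld n D) (T e : ℝ) (y : D → ℝ) : Prop where
  sm : Smooth y
  fd : ∃ A, ∀ q, ‖fd y q‖ ≤ A
  mem : ∀ q, 0 < y q ∧ y q ≤ 1
  lim : Tendsto y (cocompact D) (𝓝 1)
  harm : ∀ q ∈ Oz π s T, lap G y q = 0
  hi : ∀ q, s q = 0 → 2 * y q ≤ 1 + e
  lo : ∀ e', (∀ q, 0 < s q → rq π q = T → 1 - e' ≤ y q) → ∀ q, s q = 0 → 1 - e' ≤ 2 * y q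

namespace Db

variable {φ ps : M → ℝ} {Ra R l : ℝ} {π : D → M} {s : D → ℝ} {σ : M → D} {τ : D → D}
  (H : Db φ ps Ra R l π s σ τ) {q : D} {R' T : ℝ}
include H

theorem sm_rq : Smooth (rq π) := H.sm contDiff_normSq

variable (r : Rd φ R' R T)
include r

omit H [Mfe n D] in
theorem px_leR (h : rq π q ≤ T + 3) : ‖px (π q)‖ ≤ R :=
  le_of_sq_le_sq (h.trans r.T2) r.R0.2

theorem s_le (h : -2 ≤ s q) (h2 : rq π q ≤ T + 3) : s q ^ 2 ≤ 1 := by
  rw [H.sq q h, H.inn _ (px_leR r h2)]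
  exact r.le _

theorem s_one (h : -2 ≤ s q) (h1 : R' ^ 2 ≤ rq π q) (h2 : rq π q ≤ T + 3) : s q ^ 2 = 1 := by
  rw [H.sq q h, H.inn _ (px_leR r h2)]
  exact r.one _ (le_of_sq_le_sq h1 (norm_nonneg _))

variable {g : Fld n M} {U : M → ℝ} {c : ℝ} {G : Fld n D} (F : Fr φ Ra l π g U c G)
  (hτ : ∀ q, |s q| < 3 / 2 → IsoM τ G G q)
include F hτ

/-- the comparison on the symmetric part -/
theorem sym {y : D → ℝ} (hy : Smooth y) {t a b : ℝ} (t1 : T ≤ t) (t2 : t ≤ T + 3)
    (h1 : ∀ q, |s q| < 3 / 2 → rq π q < t → a * lap G y q ≤ 0)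
    (h2 : ∀ q q', s q = 1 → s q' = -1 → rq π q = t → rq π q' = t → 0 ≤ a * (y q + y q') + b)
    (h0 : s q = 0) : 0 ≤ a * (2 * y q) + b := by
  have cs := H.sms.cont.abs
  have cr := H.sm_rq.cont
  have k1 : ∀ z, |s z| ≤ 3 / 2 → rq π z ≤ t → |s z| ≤ 1 := fun z a b =>
    (sq_le_one_iff_abs_le_one _).1 (H.s_le r (by linarith [(abs_le.1 a).1]) (b.trans t2))
  have k2 : ∀ z, |s z| < 2 → CAt 2 (fun z => y (τ z)) z := fun z hz =>
    (H.πτ z hz).2.2.cAt two_le_oo (hy.c2 _)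
  have := wmp_cp (u := fun z => a * (y z + y (τ z)) + b) (c := fun _ => 0) F.dim F.metG
    ((isOpen_lt cs (continuous_const (y := 3 / 2))).inter (isOpen_lt cr (continuous_const (y := t))))
    (K := {z | |s z| ≤ 3 / 2 ∧ rq π z ≤ t}) ((H.cpt F.flat.lt.le F.pos R).of_isClosed_subset
      ((isClosed_le cs continuous_const).inter (isClosed_le cr continuous_const))
      fun z hz => px_leR r (hz.2.trans t2)) (fun z hz => ⟨le_of_lt hz.1, le_of_lt hz.2⟩)
    (fun z hz => (cAt_const.mul ((hy.c2 z).add (k2 z (by linarith [hz.1])))).add cAt_const)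
    (fun z hz => ⟨le_rfl, ?_⟩) (fun z hz hz' => ?_) q ⟨by rw [h0]; norm_num, ?_⟩
  · rwa [H.τ_fold h0, ← two_mul] at this
  · have m0 : |s z| < 3 / 2 := hz.1
    obtain ⟨m1, m2, -⟩ := H.πτ z (by linarith)
    rw [lap_affine, F.metG.lap_add (hy.c2 z) (k2 z (by linarith)), (hτ z m0).lap (hy.c2 _) .rfl]
    have m3 := h1 (τ z) (by rwa [m2, abs_neg]) (by rw [rq, m1]; exact hz.2)
    linarith [h1 z m0 hz.2]
  · have m0 := k1 z hz.1 hz.2
    have m3 : rq π z = t := hz.2.eq_or_lt.resolve_right fun k => hz' ⟨by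
      show |s z| < 3 / 2
      linarith, k⟩
    obtain ⟨m1, m2, -⟩ := H.πτ z (by linarith)
    have m4 : rq π (τ z) = t := by rw [rq, m1]; exact m3
    rcases sq_eq_one_iff.1 (H.s_one r (by linarith [(abs_le.1 m0).1])
      (by linarith [r.T1]) (m3.trans_le t2)) with k | k
    · exact h2 z (τ z) k (by rw [m2, k]) m3 m4
    · rw [add_comm (y z)]
      exact h2 (τ z) z (by rw [m2, k, neg_neg]) k m4 m3
  · by_contra k
    have m1 := H.sq q (by linarith)
    have m2 := H.le (π q)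
    rw [r.one _ (le_of_sq_le_sq (show R' ^ 2 ≤ rq π q by linarith [r.T1, not_le.1 k])
      (norm_nonneg _)), ← m1, h0] at m2
    norm_num at m2

theorem exists_pot (hS : SUBS) {e : ℝ} (e0 : 0 < e) : ∃ y, Py π s G T e y := by
  have sr := H.sm_rq
  have cs := H.sms.cont
  have st := Real.smoothTransition.contDiff (n := ⊤)
  have sψ : Smooth fun q => (rq π q - (T + 2)) ^ 2 := CD.pow (CD.sub sr cd_const) 2
  obtain ⟨C, hC⟩ := (H.cpt F.flat.lt.le F.pos R).exists_bound_of_continuousOn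
    (F.metG.sm_lap sψ).cont.continuousOn
  let ζ : D → ℝ := fun q => |C| / e *
    (Real.smoothTransition (-2 * s q - 1) * Real.smoothTransition (rq π q - T))
  have sζ : Smooth ζ := CD.mul cd_const (CD.mul
    (st.compM (CD.sub (CD.mul cd_const H.sms) cd_const)) (st.compM (CD.sub sr cd_const)))
  have ζ0 : ∀ q, 0 ≤ ζ q := fun q => mul_nonneg (by positivity)
    (mul_nonneg (Real.smoothTransition.nonneg _) (Real.smoothTransition.nonneg _))
  have ζ1 : ∀ q ∈ Oz π s T, ζ q = 0 := fun q hq => by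
    rcases lt_or_ge (s q) 0 with k | k
    · simp [ζ, Real.smoothTransition.zero_of_nonpos (sub_nonpos.2 (hq.2 k).le)]
    · simp only [ζ]
      rw [Real.smoothTransition.zero_of_nonpos (by linarith), zero_mul, mul_zero]
  obtain ⟨y, y1, ⟨A, y2⟩, y3, y4, y5⟩ := (H.wa0 F).pot hS F.dim (H.met0 F)
    (H.flat0 F (lt_add_one Ra)) (V := fun q => (c * U (π q)) ^ (n * bb n) * ζ q)
    (CD.mul ((H.smV F).rpow (V0 F) _) sζ)
    (fun q => mul_nonneg (Real.rpow_nonneg (V0 F q).le _) (ζ0 q)) (R' := l * Ra) fun q hq => by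
      have := (H.far F.flat.lt.le F.pos hq).1
      rw [ζ1 q ⟨by linarith, fun k => absurd k this.not_gt⟩, mul_zero]
  have y6 : ∀ q, lap G y q = ζ q * y q := fun q => by
    rw [H.lap0 F, y4, Real.rpow_neg (V0 F q).le, mul_assoc,
      inv_mul_cancel_left₀ (Real.rpow_pos_of_pos (V0 F q) _).ne']
  have y7 : ∀ q, s q = -1 → rq π q = T + 2 → y q ≤ e := fun q a b => by
    have k1 : ∀ z, -(3 / 2) ≤ s z → s z ≤ 0 → T + 1 ≤ rq π z → rq π z ≤ T + 3 → s z = -1 :=
      fun z a b c d => (sq_eq_one_iff.1 (H.s_one r (by linarith)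
        (by linarith [r.T1]) d)).resolve_left fun k => by linarith
    have := wmp_cp (u := fun z => (rq π z - (T + 2)) ^ 2 - y z + e) (c := fun _ => |C| / e) F.dim
      F.metG (((isOpen_lt (continuous_const (y := -(3 / 2))) cs).inter
        (isOpen_lt cs (continuous_const (y := 0)))).inter
        ((isOpen_lt (continuous_const (y := T + 1)) sr.cont).inter
          (isOpen_lt sr.cont (continuous_const (y := T + 3)))))
      (K := {z | (-(3 / 2) ≤ s z ∧ s z ≤ 0) ∧ T + 1 ≤ rq π z ∧ rq π z ≤ T + 3})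
      ((H.cpt F.flat.lt.le F.pos R).of_isClosed_subset
        (((isClosed_le continuous_const cs).inter (isClosed_le cs continuous_const)).inter
          ((isClosed_le continuous_const sr.cont).inter (isClosed_le sr.cont continuous_const)))
        fun z hz => px_leR r hz.2.2)
      (fun z hz => ⟨⟨le_of_lt hz.1.1, le_of_lt hz.1.2⟩, le_of_lt hz.2.1, le_of_lt hz.2.2⟩)
      (fun z _ => ((sψ.c2 z).sub (y1.c2 z)).add cAt_const)
      (fun z hz => ⟨by positivity, ?_⟩) (fun z hz hz' => ?_) q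
      ⟨⟨by linarith, by linarith⟩, by linarith, by linarith⟩
    · simp only [b] at this
      linarith
    · have m1 := k1 z (le_of_lt hz.1.1) (le_of_lt hz.1.2) (le_of_lt hz.2.1) (le_of_lt hz.2.2)
      have m2 : ζ z = |C| / e := by
        have : T + 1 < rq π z := hz.2.1
        simp only [ζ]
        rw [Real.smoothTransition.one_of_one_le (by linarith),
          Real.smoothTransition.one_of_one_le (by linarith), mul_one, mul_one]
      have m3 := (le_abs_self _).trans ((hC z (px_leR r (le_of_lt hz.2.2))).trans (le_abs_self C))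
      have m4 : 0 ≤ |C| / e * (rq π z - (T + 2)) ^ 2 := by positivity
      rw [lap_add_const, F.metG.lap_sub (sψ.c2 z) (y1.c2 z), y6, m2, mul_add, mul_sub,
        div_mul_cancel₀ _ e0.ne']
      linarith
    · have m1 := k1 z hz.1.1 hz.1.2 hz.2.1 hz.2.2
      have m2 : rq π z = T + 1 ∨ rq π z = T + 3 := by
        by_contra k
        exact hz' ⟨⟨by show _ < s z; linarith, by show s z < _; linarith⟩,
          hz.2.1.lt_of_ne' (not_or.1 k).1, hz.2.2.lt_of_ne (not_or.1 k).2⟩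
      rcases m2 with k | k <;> simp only [k] <;> linarith [(y3 z).2]
  refine ⟨y, y1, y2.fd_bd, y3, y5, fun q hq => by rw [y6, ζ1 q hq, zero_mul], fun q hq => ?_,
    fun e' he q hq => ?_⟩
  · have := H.sym r F hτ y1 (t := T + 2) (a := -1) (b := 1 + e) (by linarith) (by linarith)
      (fun z _ _ => by rw [y6]; linarith [mul_nonneg (ζ0 z) (y3 z).1.le])
      (fun z z' _ b _ d => by linarith [y7 z' b d, (y3 z).2]) hq
    linarith
  · have := H.sym r F hτ y1 (t := T) (a := 1) (b := -(1 - e')) le_rfl (by linarith)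
      (fun z a b => by rw [y6, ζ1 z ⟨(abs_lt.1 a).1, fun _ => b⟩]; simp)
      (fun z z' a _ b _ => by linarith [he z (by linarith) b, (y3 z').1]) hq
    linarith

end Db

end Vale.Agent.P366M.G
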