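import Vale.Agent.P366B.Pot
import Vale.Agent.P366B.Bend

/-!
# P366B: the rows of `BDC`
-/

open MeasureTheory Metric Filter Topology Set Matrix
open scoped ContDiff ENNReal
open Vale.Agent.P366 Vale.Agent.P366.Stmt Vale.Agent.P366Z Vale.Agent.P366D

noncomputable section

namespace Vale.Agent.P366M.G

/-- the setting on the double -/
structure Su {n : ℕ} {M D : Type} [Mfe n M] [Mfe n D] (g : Fld n M) (U φ ps : M → ℝ)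
    (R' Ra R T l c ε : ℝ) (π : D → M) (s : D → ℝ) (σ : M → D) (τ : D → D) : Prop where
  db : Db φ ps Ra R l π s σ τ
  rd : Rd φ R' R T
  fr : Fr φ Ra l π g U c (gB π (cf U g) s ε)
  e0 : 0 < ε ∧ ε ≤ 1 / 4
  le : R' ≤ Ra

/-- **LOW**: the lower bound of the potential on the upper sheet -/
def LOW : Prop := ∀ (n : ℕ) (M : Type) [Mfe n M] (g : Fld n M) (U : M → ℝ) (a R' R₁ : ℝ), 3 ≤ n →
  0 < a → Flat g R' → Tendsto U (cocompact M) (𝓝 a) → (∀ x, U x ≤ 2) →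
  (∀ x, R' ≤ ‖px x‖ → lap g U x ≤ 0) → R' < R₁ → ∃ c₁ > (0 : ℝ), ∃ T₀ : ℝ, ∀ T ≥ T₀,
    ∀ (D : Type) [Mfe n D] φ ps Ra R l c ε π (s : D → ℝ) σ τ e y, Su g U φ ps R' Ra R T l c ε π s σ τ →
      Py π s (gB π (cf U g) s ε) T e y → ∀ x, R₁ ≤ ‖px x‖ → c₁ ≤ 2 * y (σ x) - 1

/-- **NECK**: the potential is almost one half in the neck -/
def NECK : Prop := ∀ d C l₁ η : ℝ, 0 < d → 0 < η → ∃ ε₀ > (0 : ℝ), ∀ (n : ℕ) (M D : Type)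
  [Mfe n M] [Mfe n D] (g : Fld n M) U φ ps R' Ra R T l c ε π (s : D → ℝ) σ τ Z c' y, ε ≤ ε₀ →
    Su g U φ ps R' Ra R T l c ε π s σ τ → Kb (cf U g) ps Z d C c' l₁ →
    Py π s (gB π (cf U g) s ε) T (η / 2) y → ∀ q, 0 ≤ s q → s q ^ 2 ≤ 2 * ε → 2 * y q - 1 ≤ η

/-- **HM**: the function on the base -/
def HM : Prop := ∀ (n : ℕ) (M D : Type) [Mfe n M] [Mfe n D] (g : Fld n M) U φ ps R' Ra R T l c ε π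
  (s : D → ℝ) σ τ e y (a β η η'' R₁ : ℝ) f, Su g U φ ps R' Ra R T l c ε π s σ τ →
    Py π s (gB π (cf U g) s ε) T e y → Asy U a β → 0 < η → Fc η η'' f → Ra ≤ R₁ →
    (∀ q, 0 ≤ s q → s q ^ 2 ≤ 2 * ε → 2 * y q - 1 ≤ η) →
    (∀ x, R₁ ≤ ‖px x‖ → 2 * η ≤ 2 * y (σ x) - 1) →
    ∃ (h : M → ℝ) (βh : ℝ), Smooth h ∧ (∀ x, 0 < h x ∧ h x ≤ 1) ∧ (∀ x, 0 ≤ wl g U h x) ∧
      (∀ x, R₁ ≤ ‖px x‖ → wl g U h x = 0) ∧ Asy (fun x => h x * U x) a βh ∧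
      (∀ x, ps x ≤ ε → h x = η'') ∧ ∀ x, R₁ ≤ ‖px x‖ → h x = 2 * y (σ x) - 1

/-- the first shield `P` on `O`, with the slack outside the bumps `b` -/
structure S1 {n : ℕ} {D : Type} [Mfe n D] (G : Fld n D) (O : Set D) (P : D → ℝ) (ρ d : ℝ) {N : ℕ}
    (b : Fin N → D → ℝ) : Prop where
  opn : IsOpen O
  smP : ∀ x ∈ O, CAt ∞ P x
  P0 : ∀ x ∈ O, 0 ≤ P x
  cls : ∀ c, IsClosed {x | x ∈ O ∧ P x ≤ c}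
  big : ∀ θ > (0 : ℝ), ∃ h₁, ∀ x ∈ O, h₁ ≤ P x → gn G P x ≤ θ * P x ^ 2
  out : ∀ x, ρ ≤ ‖px x‖ → x ∈ O ∧ P x = 0
  slack : ∀ x ∈ O, (∀ j, b j x < 1) → 0 < scal G x + 9 / 10 * P x ^ 2 - 11 / 5 * gn G P x ∧
    (‖px x‖ ≤ ρ → d ≤ scal G x + 9 / 10 * P x ^ 2 - 11 / 5 * gn G P x)

/-- **SHD**: the first shield and the lifted bumps -/
def SHD : Prop := ∀ (n : ℕ) (M : Type) [Mfe n M] (B : Bg n M) U a β R s' (a₀ δ₀ R' Rb C T₀ : ℝ),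
  B.Ok → St B U a β R s' → 0 < a₀ → a₀ ≤ a → δ₀ ∈ Ioo (0 : ℝ) 1 → Sm B a₀ δ₀ → B.ρ ≤ R' →
  ∃ T ≥ T₀, ∃ d > (0 : ℝ), ∃ C' : ℝ, ∀ (δ : ℝ) (N : ℕ) (r : Fin N → ℝ) (b : Fin N → M → ℝ)
    (D : Type) [Mfe n D] φ ps Ra R₀ l π (s : D → ℝ) σ τ, Cov B.g C δ R' r b →
    Db φ ps Ra R₀ l π s σ τ → Rd φ R' R₀ T → R' ≤ Ra → Ra ≤ Rb → (∀ x, 0 ≤ φ x → 0 ≤ B.F x) →
    (∀ x, ps x = 0 → ∃ i, pd i ps x ≠ 0) → ∃ ε₀ > (0 : ℝ), ∀ ε ∈ Ioc 0 ε₀, ∀ k : D → ℝ, Smooth k →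
      (∀ q, δ₀ / 2 ≤ k q ∧ k q ≤ 1) → (∀ q ∈ Oz π s T, lap (gB π (cf U B.g) s ε) k q = 0) →
      (∀ q, -(3 / 2) < s q → (∀ j, b j (π q) < 1) →
        scal (cf U B.g) (π q) ≤ scal (gB π (cf U B.g) s ε) q) →
      ∃ (P : D → ℝ) (b' : Fin N → D → ℝ),
        S1 (cf k (gB π (cf U B.g) s ε)) (Oz π s T) P (l * Rb) d b' ∧
        Cov (cf k (gB π (cf U B.g) s ε)) C' δ (l * Ra) r b'

end Vale.Agent.P366M.G
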