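import Vale.Agent.P366B.Cvl
import Vale.Agent.P366B.Pole
import Vale.Agent.P366B.Rows
import Vale.Agent.P366Q.G.Scf
import Vale.Agent.P366Q.G.Int

/-!
# P366B: the first shield
-/

open MeasureTheory Metric Filter Topology Set Matrix
open scoped ContDiff ENNReal
open Vale.Agent.P366 Vale.Agent.P366.Stmt Vale.Agent.P366Z Vale.Agent.P366D

noncomputable section

namespace Vale.Agent.P366M.G

theorem shd_alg {S P N δ m m₁ : ℝ} (h0 : 0 < S + P ^ 2) (h1 : N ≤ δ * (max S 0 + P ^ 2))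
    (h2 : 1 / 4 ≤ m) (h3 : m ≤ m₁) (h4 : δ * m₁ ≤ 1 / 128) :
    (S + P ^ 2) / 32 ≤ m ^ 2 * S + 9 / 10 * (2 * m₁ * P) ^ 2 - 11 / 5 * (m * (2 * m₁ * N)) := by
  have a0 : 0 ≤ max S 0 + P ^ 2 := by positivity
  have a1 : m₁ * N ≤ 1 / 128 * (max S 0 + P ^ 2) :=
    (mul_le_mul_of_nonneg_left h1 (by linarith)).trans (by nlinarith)
  have a2 : m * (2 * m₁ * N) ≤ m * (1 / 64 * (max S 0 + P ^ 2)) :=
    mul_le_mul_of_nonneg_left (by linarith) (by linarith)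
  have p := sq_nonneg P
  have a3 : m ^ 2 * P ^ 2 ≤ m₁ ^ 2 * P ^ 2 := by gcongr
  have a4 : m / 4 * P ^ 2 ≤ m ^ 2 * P ^ 2 := mul_le_mul_of_nonneg_right (by nlinarith) p
  have a5 : 1 / 4 * P ^ 2 ≤ m * P ^ 2 := by gcongr
  rcases le_total S 0 with h | h
  · rw [max_eq_right h] at a2
    have : 1 / 16 * (S + P ^ 2) ≤ m ^ 2 * (S + P ^ 2) :=
      mul_le_mul_of_nonneg_right (by nlinarith) h0.le
    nlinarith
  · rw [max_eq_left h] at a2
    have b1 : m / 4 * S ≤ m ^ 2 * S := mul_le_mul_of_nonneg_right (by nlinarith) h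
    have b2 : 1 / 4 * S ≤ m * S := by gcongr
    nlinarith

variable {n : ℕ} {M : Type} [Mfe n M] {B : Bg n M}

theorem Bg.Ok.cQ (hB : B.Ok) : Continuous B.Q := by
  have U0 : ∀ x, B.U x ≠ 0 := fun x => by linarith [(hB.Ub x).1] |> ne_of_gt
  rw [show B.Q = fun x => lap B.g B.U x / B.U x from funext fun x => by
    rw [hB.eqn, mul_div_cancel_right₀ _ (U0 x)]]
  exact (hB.met.sm_lap hB.smU).cont.div hB.smU.cont U0

theorem gn_normSq {g : Fld n M} {ρ : ℝ} {x : M} (hf : Flat g ρ) (hx : ρ ≤ ‖px x‖) :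
    gn g (fun z => ‖px z‖ ^ 2) x = 2 * ‖px x‖ := by
  rw [hf.gn_eq hx, gn, ip_eu, Real.sqrt_eq_iff_mul_self_eq
    (Finset.sum_nonneg fun i _ => mul_self_nonneg _) (by positivity)]
  simp only [pd_normSq (hf.far hx).le]
  rw [show 2 * ‖px x‖ * (2 * ‖px x‖) = 4 * ‖px x‖ ^ 2 by ring, EuclideanSpace.real_norm_sq_eq,
    Finset.mul_sum]
  exact Finset.sum_congr rfl fun i _ => by ring

/-- the profile of the pole -/
structure Pk (A e a T : ℝ) (K : ℝ → ℝ) : Prop where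
  lt : a + 1 < T
  z : ∀ t ≤ a, K t = 0
  p : ∀ t < T, ContDiffAt ℝ ∞ K t ∧ 0 ≤ K t ∧ 0 ≤ deriv K t ∧
    (t ≤ a + 1 → A * √t * deriv K t ≤ e) ∧ (a + 1 ≤ t → A * √t * deriv K t ≤ K t ^ 2)
  lim : Tendsto K (𝓝[<] T) atTop
  big : ∀ θ > (0 : ℝ), ∃ h₁, ∀ t < T, h₁ ≤ K t → deriv K t ≤ θ * K t ^ 2

variable {D : Type} [Mfe n D]

/-- the shield of the middle sheet -/
def pK (π : D → M) (s : D → ℝ) (K : ℝ → ℝ) (q : D) : ℝ :=
  if s q < 0 then K (‖px (π q)‖ ^ 2) else 0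

/-- the setting -/
structure Sx (φ ps : M → ℝ) (Ra R l : ℝ) (π : D → M) (s : D → ℝ) (σ : M → D) (τ : D → D)
    (g : Fld n M) (G : Fld n D) (R' T m₁ : ℝ) : Prop where
  db : Db φ ps Ra R l π s σ τ
  met : Met G
  flat : Flat g R'
  m0 : 0 < m₁
  r3 : R' ≤ R
  r4 : T ≤ R ^ 2
  φ1 : ∀ x, φ x ≤ 1
  φ2 : ∀ x, R' ≤ ‖px x‖ → 0 < φ x
  gl : ∀ q u, DAt u (π q) → gn G (fun z => u (π z)) q ≤ m₁ * gn g u (π q)

namespace Sx

variable {φ ps : M → ℝ} {Ra R l : ℝ} {π : D → M} {s : D → ℝ} {σ : M → D} {τ : D → D}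
  {g : Fld n M} {G : Fld n D} {R' T m₁ e : ℝ} (X : Sx φ ps Ra R l π s σ τ g G R' T m₁) {q : D}
  {K : ℝ → ℝ} {P : D → ℝ}

omit [Mfe n D] in
theorem o1 (hq : q ∈ Os π s T) : -(3 / 2) < s q := hq.elim (fun h => by linarith) And.left

omit [Mfe n D] in
theorem o2 (hq : q ∈ Os π s T) (h : s q ≤ 0) : ‖px (π q)‖ ^ 2 < T := (hq.resolve_left h.not_gt).2

include X

theorem sr : Smooth fun q => ‖px (π q)‖ ^ 2 := X.db.sm contDiff_normSq

theorem opn : IsOpen (Os π s T) := (isOpen_lt continuous_const X.db.sms.cont).union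
  ((isOpen_lt continuous_const X.db.sms.cont).inter (isOpen_lt X.sr.cont continuous_const))

theorem o3 (hq : q ∈ Os π s T) : -1 ≤ s q := by
  rcases le_or_gt (s q) 0 with h | h
  · have := X.db.sq q (by linarith [o1 hq])
    rw [X.db.inn _ (le_of_sq_le_sq ((o2 hq h).le.trans X.r4)
      (by linarith [X.r3, X.flat.one_le]))] at this
    nlinarith [X.φ1 (π q)]
  · linarith

theorem o5 (hq : s q = 0) : ‖px (π q)‖ < R' := not_le.1 fun h => by
  have := X.db.sq q (by linarith)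
  rw [hq] at this
  linarith [X.φ2 _ h, X.db.le (π q)]

variable (Y : Pk (5 * m₁) e (R' ^ 2) T K)
include Y

theorem p2 (hq : q ∈ Os π s T) : CAt ∞ (pK π s K) q ∧ (pK π s K q = 0 ∧ gn G (pK π s K) q = 0 ∨
    ∃ t < T, t = ‖px (π q)‖ ^ 2 ∧ pK π s K q = K t ∧
      gn G (pK π s K) q ≤ 2 / 5 * (5 * m₁ * √t * deriv K t)) := by
  have cs := X.db.sms.cont
  by_cases h : s q ≤ 0 ∧ R' ≤ ‖px (π q)‖
  · have h1 : s q < 0 := h.1.lt_of_ne fun c => (X.o5 c).not_ge h.2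
    have h2 := o2 hq h.1
    have e : pK π s K =ᶠ[𝓝 q] fun z => K (‖px (π z)‖ ^ 2) :=
      (cs.continuousAt.eventually (gt_mem_nhds h1)).mono fun z hz => if_pos hz
    have cK := (Y.p _ h2).1
    have dK := cK.differentiableAt (by simp)
    have dn : DAt (fun z : M => ‖px z‖ ^ 2) (π q) := contDiff_normSq.diff _
    refine ⟨(ContDiffAt.compM (f := fun q => ‖px (π q)‖ ^ 2) cK
      (CD.contDiffAt X.sr)).congr_of_eventuallyEq e, Or.inr ⟨_, h2, rfl, e.eq_of_nhds, ?_⟩⟩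
    rw [gn_congr e]
    refine (X.gl q (fun x => K (‖px x‖ ^ 2))
      (DifferentiableAt.compM (f := fun z : M => ‖px z‖ ^ 2) dK dn)).trans (le_of_eq ?_)
    rw [gn_comp (u := fun z : M => ‖px z‖ ^ 2) dK.hasDerivAt dn, gn_normSq X.flat h.2,
      abs_of_nonneg (Y.p _ h2).2.2.1, Real.sqrt_sq (norm_nonneg _)]
    ring
  · have e : pK π s K =ᶠ[𝓝 q] fun _ => 0 := by
      rcases not_and_or.1 h with h | h
      · exact (cs.continuousAt.eventually (lt_mem_nhds (not_le.1 h))).mono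
          fun z hz => if_neg hz.not_gt
      · filter_upwards [X.db.cπ.continuousAt.eventually (ev_px_lt (not_le.1 h))] with z hz
        simp only [pK, Y.z _ (pow_le_pow_left₀ (norm_nonneg _) hz.le 2), ite_self]
    exact ⟨cAt_const.congr_of_eventuallyEq e, Or.inl ⟨e.eq_of_nhds, gn_zero (pd_zero_of_ev e)⟩⟩

theorem p0 (hq : q ∈ Os π s T) : 0 ≤ pK π s K q := by
  rcases (X.p2 Y hq).2 with h | ⟨t, t1, -, h, -⟩
  exacts [h.1.ge, h ▸ (Y.p t t1).2.1]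

theorem gP (sP : Smooth P) (hq : q ∈ Os π s T) :
    gn G (fun q => P q + pK π s K q) q ≤ gn G P q + gn G (pK π s K) q :=
  X.met.gn_add_le (pd_add (sP.diff q) ((X.p2 Y hq).1.differentiableAt (by simp)))

theorem cls (sP : Smooth P) (P0 : ∀ q, 0 ≤ P q) (c : ℝ) :
    IsClosed {q | q ∈ Os π s T ∧ P q + pK π s K q ≤ c} := by
  have cs := X.db.sms.cont
  obtain ⟨t, t1, ht⟩ := mem_nhdsLT_iff_exists_Ioo_subset.1 (Y.lim.eventually_gt_atTop c)
  have sub : {q | 0 ≤ s q} ∪ {q | -1 ≤ s q ∧ ‖px (π q)‖ ^ 2 ≤ t} ⊆ Os π s T := by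
    rintro q (h | h)
    · rcases (show 0 ≤ s q from h).eq_or_lt with h | h
      · exact Or.inr ⟨by linarith, by
          linarith [pow_le_pow_left₀ (norm_nonneg _) (X.o5 h.symm).le 2, Y.lt]⟩
      · exact Or.inl h
    · exact Or.inr ⟨by linarith [h.1], h.2.trans_lt t1⟩
  have := ContinuousOn.preimage_isClosed_of_isClosed (f := fun q => P q + pK π s K q)
    (fun q hq => (sP.cont.continuousAt.add (X.p2 Y (sub hq)).1.continuousAt).continuousWithinAt)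
    ((isClosed_le continuous_const cs).union ((isClosed_le continuous_const cs).inter
      (isClosed_le X.sr.cont continuous_const))) (isClosed_Iic (a := c))
  refine (congrArg IsClosed (Set.ext fun q => ?_)).mp this
  refine ⟨fun h => ⟨sub h.1, h.2⟩,
    fun h => ⟨or_iff_not_imp_left.2 fun h' => ⟨X.o3 h.1, not_lt.1 fun c' => ?_⟩, h.2⟩⟩
  have h1 : s q < 0 := not_le.1 h'
  have h2 : c < K (‖px (π q)‖ ^ 2) := ht ⟨c', o2 h.1 h1.le⟩
  have h3 := h.2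
  simp only [pK, if_pos h1] at h3
  linarith [P0 q]

theorem big (sP : Smooth P) {A : ℝ} (hP : ∀ q, 0 ≤ P q ∧ P q ≤ A ∧ gn G P q ≤ A) (θ : ℝ)
    (hθ : θ > 0) : ∃ h₁, ∀ q ∈ Os π s T, h₁ ≤ P q + pK π s K q →
      gn G (fun q => P q + pK π s K q) q ≤ θ * (P q + pK π s K q) ^ 2 := by
  have m0 := X.m0
  have T2 : 0 < √T := Real.sqrt_pos.2 (by linarith [Y.lt, sq_nonneg R'])
  obtain ⟨h₁, hh⟩ := Y.big (θ / (4 * m₁ * √T)) (by positivity)
  refine ⟨max (max 1 (2 * A / θ)) (h₁ + A), fun q hq h => ?_⟩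
  simp only [max_le_iff] at h
  obtain ⟨⟨h1, h2⟩, h3⟩ := h
  obtain ⟨h4, h5, h8⟩ := hP q
  rw [div_le_iff₀ hθ] at h2
  have h6 : gn G (pK π s K) q ≤ θ / 2 * pK π s K q ^ 2 := by
    rcases (X.p2 Y hq).2 with e | ⟨t, t1, -, e, e'⟩
    · rw [e.1, e.2]; simp
    · have := hh t t1 (by linarith)
      rw [e]
      calc _ ≤ 2 / 5 * (5 * m₁ * √T * (θ / (4 * m₁ * √T) * K t ^ 2)) :=
            e'.trans (by gcongr; exact (Y.p t t1).2.2.1)
        _ = _ := by field_simp; ring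
  have h7 : pK π s K q ^ 2 ≤ (P q + pK π s K q) ^ 2 :=
    pow_le_pow_left₀ (X.p0 Y hq) (by linarith) 2
  refine (X.gP Y sP hq).trans ?_
  generalize P q + pK π s K q = Z at *
  nlinarith [mul_le_mul_of_nonneg_left h7 hθ.le, mul_le_mul_of_nonneg_left h1
    (mul_nonneg hθ.le (zero_le_one.trans h1))]

theorem slack (hq : q ∈ Os π s T) {b : ℝ} (b0 : 0 ≤ b) (h : ‖px (π q)‖ ≤ R' ^ 2 + 1 → e ≤ b) :
    -b ≤ 9 / 10 * pK π s K q ^ 2 - 11 / 5 * gn G (pK π s K) q := by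
  rcases (X.p2 Y hq).2 with k | ⟨t, t1, t2, k, k'⟩
  · rw [k.1, k.2]; linarith
  · rcases le_total t (R' ^ 2 + 1) with c | c
    · have := h (by nlinarith [norm_nonneg (px (π q)), sq_nonneg R'])
      linarith [(Y.p t t1).2.2.2.1 c, sq_nonneg (pK π s K q)]
    · rw [k]
      linarith [(Y.p t t1).2.2.2.2 c, sq_nonneg (K t)]

end Sx

theorem scal_lift {U : M → ℝ} {a β R s' : ℝ} {G : Fld n D} {k : D → ℝ} {q : D} {x : M} (hB : B.Ok)
    (hU : St B U a β R s') (hG : Met G) (sk : Smooth k) (k0 : ∀ q, 0 < k q) (hl : lap G k q = 0)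
    (hs : scal (cf U B.g) x ≤ scal G q) : ((k q * U x) ^ (-bb n)) ^ 2 *
      (scal B.g x - 4 * gam n * B.Q x) ≤ scal (cf k G) q := by
  have u := hU.pos hB x
  have g0 : 0 ≤ gam n := by rw [gam_eq hB.dim]; have := bb_pos hB.dim; positivity
  have e1 : U x ^ (-(2 * bb n)) * (scal B.g x - 4 * gam n * B.Q x) ≤ scal (cf U B.g) x := by
    rw [hB.met.scal_cf hB.dim hU.sm (hU.pos hB), Real.rpow_sub_one u.ne', div_mul_eq_mul_div,
      mul_div_assoc]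
    refine mul_le_mul_of_nonneg_left ((le_div_iff₀ u).2 ?_) (by positivity)
    unfold cl
    linarith [mul_le_mul_of_nonneg_left (hU.sup x) g0]
  rw [hG.scal_cf hB.dim sk k0, Real.rpow_sub_one (k0 q).ne', cl, hl, mul_zero, zero_add,
    div_mul_eq_mul_div, mul_div_assoc, mul_div_cancel_right₀ _ (k0 q).ne', ← Real.rpow_two,
    ← Real.rpow_mul (mul_pos (k0 q) u).le, show -bb n * 2 = -(2 * bb n) by ring,
    Real.mul_rpow (k0 q).le u.le, mul_assoc]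
  exact mul_le_mul_of_nonneg_left (e1.trans hs) (Real.rpow_nonneg (k0 q).le _)

theorem rpow_bd (hn : 3 ≤ n) {v v₀ : ℝ} (h0 : 0 < v₀) (h1 : v₀ ≤ v) (h2 : v ≤ 2) :
    1 / 4 ≤ v ^ (-bb n) ∧ v ^ (-bb n) ≤ v₀ ^ (-bb n) := by
  have b0 := neg_nonpos.2 (bb_pos hn).le
  refine ⟨le_trans ?_ (Real.rpow_le_rpow_of_nonpos (h0.trans_le h1) h2 b0),
    Real.rpow_le_rpow_of_nonpos h0 h1 b0⟩
  refine le_trans (le_of_eq ?_) (Real.rpow_le_rpow_of_exponent_le one_le_two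
    (neg_le_neg (bb_le hn)))
  rw [Real.rpow_neg two_pos.le, Real.rpow_two]
  norm_num

/-- **SH0** -/
theorem sh0 : SH0 := by
  intro n M _ B U a β R₀ s' a₀ δ₀ R' Rb T₀ hB hU a0 a1 ⟨δ0, δ1⟩ hS hR
  obtain ⟨P, sP, P0, P1, P2⟩ := hB.slack
  have hn := hB.dim
  have hg := hB.met
  have U0 := hU.pos hB
  have R1 : 1 ≤ R' := hB.one.trans hR
  have low : ∀ r, ∃ d > (0 : ℝ), ∀ x, 0 ≤ B.F x → ‖px x‖ ≤ r →
      d ≤ scal B.g x - 4 * gam n * B.Q x + P x ^ 2 := fun r => by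
    obtain ⟨d, d0, hd⟩ := ((isCompact_px M r).inter_right (isClosed_le (continuous_const (y := 0))
      hB.smF.cont)).exists_forall_le' ((hg.sm_scal.cont.sub (continuous_const.mul hB.cQ)).add
        (sP.cont.pow 2)).continuousOn (a := 0) fun x hx => (P2 x hx.2).1
    exact ⟨d, d0, fun x h1 h2 => hd x ⟨h2, h1⟩⟩
  obtain ⟨m₁, hm⟩ : ∃ m₁, m₁ = (δ₀ / 2 * (a₀ / 2)) ^ (-bb n) := ⟨_, rfl⟩
  have m0 : 0 < m₁ := by rw [hm]; positivity
  have m1 : B.δ * m₁ ≤ 1 / 128 := by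
    rw [hm, Real.rpow_neg (by positivity), ← div_eq_mul_inv, div_le_iff₀ (by positivity),
      Real.mul_rpow (by positivity) (by positivity)]
    exact le_trans hS (le_of_eq (by ring))
  obtain ⟨d₁, d1, hd1⟩ := low (R' ^ 2 + 1)
  obtain ⟨T, T0, T1, K, K0, K1, K2, K3⟩ := pole (5 * m₁) (by positivity) (d₁ / 64) (by positivity)
    (R' ^ 2) (one_le_pow₀ R1) T₀
  have Y : Pk (5 * m₁) (d₁ / 64) (R' ^ 2) T K := ⟨T1, K0, K1, K2, K3⟩
  clear K0 K1 K2 K3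
  obtain ⟨d₂, d2, hd2⟩ := low (max Rb T)
  obtain ⟨A₁, A1, hA1⟩ := bdd_of_out sP.cont (R := B.ρ) (C := 0) fun y hy => by simp [P1 y hy.le]
  obtain ⟨A₂, A2, hA2⟩ := bdd_of_out (hg.cont_gn sP.one) (R := B.ρ) (C := 0) fun y hy => by
    rw [gn_zero (pd_zero_of_ev ((ev_lt_px hy).mono fun z hz => P1 z hz.le)), norm_zero]
  refine ⟨T, T0, by linarith, d₂ / 64, by positivity, ?_⟩
  intro D _ φ ps Ra R l π s σ τ w k H r1 r2 r3 r4 φ1 φ2 φ3 hG w0 sk hk hl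
  have ra : R0 M ≤ Ra := by linarith [hB.flat.lt]
  have k0 : ∀ q, 0 < k q := fun q => by linarith [(hk q).1]
  have mq := fun q => rpow_bd hn (v := k q * U (π q)) (v₀ := δ₀ / 2 * (a₀ / 2)) (by positivity)
    (mul_le_mul (hk q).1 (by linarith [hU.half hB (π q)]) (by positivity) (k0 q).le)
    ((mul_le_mul (hk q).2 (hU.le_two hB _) (U0 _).le zero_le_one).trans (one_mul _).le)
  rw [← hm] at mq
  have gl := fun q u hu => gn_lift (q := q) (u := u) hg hU.sm U0 hG (H.smπ q) (w0 q) (k0 q) hu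
  have X : Sx φ ps Ra R l π s σ τ B.g (cf k (gD π (cf U B.g) w s)) R' T m₁ :=
    ⟨H, hG.cf sk k0, hB.flat.mono hR, m0, r3, r4, φ1, φ2, fun q u hu =>
      (gl q u hu).trans (mul_le_mul_of_nonneg_right (mq q).2 (gn_nonneg _ _ _))⟩
  have s1 : Smooth fun q => 2 * m₁ * P (π q) := CD.mul cd_const (H.sm sP)
  have p1 : ∀ q, 0 ≤ 2 * m₁ * P (π q) := fun q => mul_nonneg (by positivity) (P0 _)
  have g1 : ∀ q, gn (cf k (gD π (cf U B.g) w s)) (fun q => 2 * m₁ * P (π q)) q ≤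
      (k q * U (π q)) ^ (-bb n) * (2 * m₁ * gn B.g P (π q)) := fun q => by
    have := gl q (fun x => 2 * m₁ * P x) ((sP.diff _).const_mul _)
    rwa [gn_of_pd (u := fun x => 2 * m₁ * P x) (pd_const_mul _), abs_of_pos (by positivity)] at this
  refine ⟨fun q => 2 * m₁ * P (π q) + pK π s K q, ⟨X.opn, fun q hq => (CD.contDiffAt s1).add
    (X.p2 Y hq).1, fun q hq => add_nonneg (p1 q) (X.p0 Y hq), X.cls Y s1 p1,
    X.big Y s1 (A := max (2 * m₁ * A₁) (m₁ * (2 * m₁ * A₂))) fun q => ⟨p1 q, le_max_of_le_left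
      (mul_le_mul_of_nonneg_left ((le_abs_self _).trans (hA1 _)) (by positivity)),
      le_max_of_le_right ((g1 q).trans (mul_le_mul (mq q).2 (mul_le_mul_of_nonneg_left
        ((le_abs_self _).trans (hA2 _)) (by positivity))
        (mul_nonneg (by positivity) (gn_nonneg _ _ _)) m0.le))⟩, fun q hq => ?_⟩,
    fun q hq => ⟨X.o3 hq, fun hs => ?_⟩⟩
  · obtain ⟨f1, f2, -⟩ := H.far ra (fun x hx => φ2 x (r1.trans hx))
      ((mul_le_mul_of_nonneg_left r2 H.l0.le).trans hq)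
    refine ⟨Or.inl f1, ?_⟩
    simp only [pK, if_neg f1.not_gt, P1 _ ((hR.trans r1).trans f2), mul_zero, add_zero]
  have o4 : 0 ≤ B.F (π q) := by
    rcases le_total ‖px (π q)‖ R with h | h
    · refine φ3 _ ?_
      rw [← H.inn _ h, ← H.sq q (by linarith [Sx.o1 hq])]
      positivity
    · linarith [hB.far _ ((hR.trans r3).trans h), hB.s0]
  obtain ⟨x1, x2⟩ := P2 _ o4
  have sc := scal_lift hB hU hG sk k0 (hl q hq) hs
  have al := shd_alg x1 x2 (mq q).1 (mq q).2 m1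
  have sh := X.slack Y hq (b := (scal B.g (π q) - 4 * gam n * B.Q (π q) + P (π q) ^ 2) / 64)
    (by positivity) fun h => by linarith [hd1 _ o4 h]
  have fin : (scal B.g (π q) - 4 * gam n * B.Q (π q) + P (π q) ^ 2) / 64 ≤
      scal (cf k (gD π (cf U B.g) w s)) q + 9 / 10 * (2 * m₁ * P (π q) + pK π s K q) ^ 2 - 11 / 5 *
        gn (cf k (gD π (cf U B.g) w s)) (fun q => 2 * m₁ * P (π q) + pK π s K q) q := by
    rw [add_sq]
    linarith [X.gP Y s1 hq, g1 q, mul_nonneg (p1 q) (X.p0 Y hq)]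
  refine ⟨lt_of_lt_of_le (by positivity) fin, fun h => le_trans ?_ fin⟩
  refine div_le_div_of_nonneg_right (hd2 _ o4 ?_) (by norm_num)
  rcases le_or_gt (s q) 0 with c | c
  · refine le_max_of_le_right (le_of_sq_le_sq ((Sx.o2 hq c).le.trans ?_) ?_)
    · exact le_self_pow₀ (by linarith [sq_nonneg R']) two_ne_zero
    · linarith [sq_nonneg R']
  · refine le_max_of_le_left (not_lt.1 fun c' => ?_)
    have := H.px_σ ra (r2.trans c'.le)
    rw [H.σπ c] at this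
    rw [this, norm_smul, Real.norm_of_nonneg H.l0.le] at h
    exact (mul_lt_mul_of_pos_left c' H.l0).not_ge h

/-- **SHD** -/
theorem shd : SHD := by
  intro n M _ B U a β R s' a₀ δ₀ R' Rb C T₀ hB hU a0 a1 hδ hS hR
  obtain ⟨T, T0, -, d, d0, h1⟩ := sh0 n M B U a β R s' a₀ δ₀ R' Rb T₀ hB hU a0 a1 hδ hS hR
  obtain ⟨C', h2⟩ := cvl n (δ₀ / 2 * (a₀ / 2)) C hB.dim (by have := hδ.1; positivity)
  refine ⟨T, T0, d, d0, C', ?_⟩
  intro δ N r b D _ φ ps Ra R₀ l π s σ τ K H rd r1 r2 φ1 φ2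
  have U0 := hU.pos hB
  have r3 : R' ≤ R₀ := le_of_sq_le_sq (by linarith [rd.T1, rd.T2]) rd.R0.2
  have φ3 : ∀ x, R' ≤ ‖px x‖ → 0 < φ x := fun x hx => (rd.one x hx).symm ▸ one_pos
  obtain ⟨ε₀, ε0, h2⟩ := h2 M D B.g U φ ps Ra R₀ l π s σ τ δ R' N r b hB.met hU.sm
    (fun x => ⟨U0 x, hU.le_two hB x⟩) H (by linarith [hB.flat.lt]) r1 r3 rd.le rd.one (fun x hx => by
      have a : ‖px x‖ < R₀ := (not_le.1 fun k => (φ3 x k).ne' hx).trans_le r3
      have e : ps =ᶠ[𝓝 x] φ := (ev_px_lt a).mono fun y hy => H.inn y hy.le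
      simpa only [pd_congr e] using φ2 x (e.eq_of_nhds.trans hx)) K
  refine ⟨ε₀, ε0, fun ε hε k sk hk hl hs => ?_⟩
  have k0 : ∀ q, 0 < k q := fun q => by linarith [(hk q).1, hδ.1]
  obtain ⟨b', b1, b2⟩ := h2 ε hε k sk fun q => ⟨k0 q, (hk q).2, mul_le_mul (hk q).1
    (by linarith [hU.half hB (π q)]) (by positivity) (k0 q).le⟩
  have e : Oz π s T = Os π s T := Set.ext fun q => ⟨fun h => by
    rcases lt_trichotomy (s q) 0 with c | c | c
    · exact Or.inr ⟨h.1, h.2 c⟩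
    · refine Or.inr ⟨h.1, lt_of_lt_of_le (pow_lt_pow_left₀ (not_le.1 fun k => ?_) (norm_nonneg _)
        two_ne_zero) rd.T1⟩
      have := H.sq q (by linarith)
      rw [c] at this
      linarith [φ3 _ k, H.le (π q)]
    · exact Or.inl c,
    fun h => h.elim (fun h => ⟨by linarith, fun c => (c.not_gt h).elim⟩) fun h => ⟨h.1, fun _ => h.2⟩⟩
  rw [e] at hl ⊢
  obtain ⟨P, P1, P2⟩ := h1 D φ ps Ra R₀ l π s σ τ _ k H r1 r2 r3 (by linarith [rd.T2]) rd.le φ3 φ1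
    (H.metB (hB.met.cf hU.sm U0) hε.1) (fun _ => chi_nonneg hε.1 _) sk hk hl
  exact ⟨P, b', ⟨P1.opn, P1.smP, P1.P0, P1.cls, P1.big, P1.out, fun q hq h => (P2 q hq).2
    (hs q (by linarith [(P2 q hq).1]) fun j => b2 j q (P2 q hq).1 (h j))⟩, b1⟩

end Vale.Agent.P366M.G
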