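import Vale.Agent.P366B.Bend

/-!
# P366B: the first shield and the lifted bumps (statements)
-/

open MeasureTheory Metric Filter Topology Set Matrix
open scoped ContDiff ENNReal
open Vale.Agent.P366 Vale.Agent.P366.Stmt Vale.Agent.P366Z Vale.Agent.P366D

noncomputable section

namespace Vale.Agent.P366M.G

/-- the upper sheet and the part `‖px‖² < T` of the middle sheet -/
def Os {n : ℕ} {M D : Type} [Mfe n M] (π : D → M) (s : D → ℝ) (T : ℝ) : Set D :=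
  {q | 0 < s q ∨ -(3 / 2) < s q ∧ ‖px (π q)‖ ^ 2 < T}

/-- the fields of `Sf` which concern the first shield; `G` is the metric `cf v g₀` -/
structure S0 {n : ℕ} {D : Type} [Mfe n D] (G : Fld n D) (O : Set D) (P : D → ℝ) (ρ : ℝ) :
    Prop where
  opn : IsOpen O
  smP : ∀ x ∈ O, CAt ∞ P x
  P0 : ∀ x ∈ O, 0 ≤ P x
  cls : ∀ c, IsClosed {x | x ∈ O ∧ P x ≤ c}
  big : ∀ θ > (0 : ℝ), ∃ h₁, ∀ x ∈ O, h₁ ≤ P x → gn G P x ≤ θ * P x ^ 2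
  out : ∀ x, ρ ≤ ‖px x‖ → x ∈ O ∧ P x = 0

/-- **SH0**: the first shield and the slack -/
def SH0 : Prop := ∀ (n : ℕ) (M : Type) [Mfe n M] (B : Bg n M) U a β R₀ s' (a₀ δ₀ R' Rb T₀ : ℝ),
  B.Ok → St B U a β R₀ s' → 0 < a₀ → a₀ ≤ a → δ₀ ∈ Ioo (0 : ℝ) 1 → Sm B a₀ δ₀ → B.ρ ≤ R' →
  ∃ T ≥ T₀, R' ^ 2 < T ∧ ∃ d > (0 : ℝ), ∀ (D : Type) [Mfe n D] (φ ps : M → ℝ) (Ra R l : ℝ) π
    (s : D → ℝ) σ τ (w k : D → ℝ), Db φ ps Ra R l π s σ τ → R' ≤ Ra → Ra ≤ Rb → R' ≤ R →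
    T ≤ R ^ 2 → (∀ x, φ x ≤ 1) → (∀ x, R' ≤ ‖px x‖ → 0 < φ x) → (∀ x, 0 ≤ φ x → 0 ≤ B.F x) →
    Met (gD π (cf U B.g) w s) → (∀ q, 0 ≤ w q) → Smooth k → (∀ q, δ₀ / 2 ≤ k q ∧ k q ≤ 1) →
    (∀ q ∈ Os π s T, lap (gD π (cf U B.g) w s) k q = 0) →
    ∃ P, S0 (cf k (gD π (cf U B.g) w s)) (Os π s T) P (l * Rb) ∧ ∀ q ∈ Os π s T, -1 ≤ s q ∧
      (scal (cf U B.g) (π q) ≤ scal (gD π (cf U B.g) w s) q →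
        0 < scal (cf k (gD π (cf U B.g) w s)) q + 9 / 10 * P q ^ 2 -
          11 / 5 * gn (cf k (gD π (cf U B.g) w s)) P q ∧ (‖px q‖ ≤ l * Rb →
        d ≤ scal (cf k (gD π (cf U B.g) w s)) q + 9 / 10 * P q ^ 2 -
          11 / 5 * gn (cf k (gD π (cf U B.g) w s)) P q))

/-- **CVL**: the lifted bumps -/
def CVL : Prop := ∀ (n : ℕ) (m₀ C : ℝ), 3 ≤ n → 0 < m₀ → ∃ C' : ℝ, ∀ (M D : Type) [Mfe n M] [Mfe n D]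
  (g : Fld n M) (U φ ps : M → ℝ) (Ra R l : ℝ) π (s : D → ℝ) σ τ (δ R' : ℝ) (N : ℕ) (r : Fin N → ℝ)
  (c : Fin N → M → ℝ), Met g → Smooth U → (∀ x, 0 < U x ∧ U x ≤ 2) → Db φ ps Ra R l π s σ τ →
  R0 M ≤ Ra → R' ≤ Ra → R' ≤ R → (∀ x, φ x ≤ 1) → (∀ x, R' ≤ ‖px x‖ → φ x = 1) →
  (∀ x, φ x = 0 → ∃ i, pd i φ x ≠ 0) → Cov g C δ R' r c → ∃ ε₀ > (0 : ℝ), ∀ ε ∈ Ioc 0 ε₀,
    ∀ k : D → ℝ, Smooth k → (∀ q, 0 < k q ∧ k q ≤ 1 ∧ m₀ ≤ k q * U (π q)) →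
      ∃ c', Cov (cf k (gB π (cf U g) s ε)) C' δ (l * Ra) r c' ∧
        ∀ j q, -1 ≤ s q → c' j q < 1 → c j (π q) < 1

end Vale.Agent.P366M.G
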